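import Vale.Agent.P154.DE.Node
import Vale.Agent.P154.End.Moments

/-!
# Starting a certificate, mixing the offspring numbers, reading off the moments
-/

namespace Vale.Agent.P154.Q3.DE

open scoped BigOperators
open Equiv

variable {P K G : ℕ}

/-- Half the norm `a² + b² + c² - ab - bc - ca` of a vector, doubled. -/
def nsqN (v : T) : ℕ :=
  v.1 * v.1 + v.2.1 * v.2.1 + v.2.2 * v.2.2 - (v.1 * v.2.1 + v.2.1 * v.2.2 + v.2.2 * v.1)

theorem nsqN_cast (v : T) : (nsqN v : ℝ) = nsq (v.1 : ℝ) v.2.1 v.2.2 := by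
  have h : v.1 * v.2.1 + v.2.1 * v.2.2 + v.2.2 * v.1 ≤
      v.1 * v.1 + v.2.1 * v.2.1 + v.2.2 * v.2.2 := by
    nlinarith [two_mul_le_add_sq (v.1 : ℤ) v.2.1, two_mul_le_add_sq (v.2.1 : ℤ) v.2.2,
      two_mul_le_add_sq (v.2.2 : ℤ) v.1]
  rw [nsqN, Nat.cast_sub h]
  simp only [nsq]; push_cast; ring

theorem rdot_cast (r : ℝ) (g : T → ℕ) : ∀ (m : List ℕ) (xs : List T),
    rdot m (xs.map fun v => r * g v) = r * (dot m (mapK g xs) : ℕ)
  | [], xs => by cases xs <;> simp [rdot, dot_nil_left]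
  | a :: m, [] => by simp [rdot, dot_nil_right, mapK_eq]
  | a :: m, v :: xs => by
    rw [List.map_cons, rdot, rdot_cast r g m xs, mapK_eq, mapK_eq, List.map_cons, dot_cons]
    push_cast; ring

theorem sym_const (g : (Fin 3 → ℝ) → ℝ) (v : Fin 3 → ℝ)
    (h : ∀ σ : Perm (Fin 3), g (v ∘ σ) = g v) : sym g v = 6 * g v := by
  rw [sym, Finset.sum_congr rfl fun σ _ => h σ, Finset.sum_const, Finset.card_univ,
    Fintype.card_perm, nsmul_eq_mul]
  norm_num [Nat.factorial]

theorem comp_sums (v : Fin 3 → ℝ) (σ : Perm (Fin 3)) :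
    tot (v ∘ σ) = tot v ∧ (v ∘ σ) 0 ^ 2 + (v ∘ σ) 1 ^ 2 + (v ∘ σ) 2 ^ 2 = v 0 ^ 2 + v 1 ^ 2 + v 2 ^ 2 := by
  have h := Equiv.sum_comp σ v
  have h2 := Equiv.sum_comp σ fun i => v i ^ 2
  simp only [Fin.sum_univ_three] at h h2
  exact ⟨h, h2⟩

theorem nsq_eq (v : Fin 3 → ℝ) :
    nsq (v 0) (v 1) (v 2) = 3 / 2 * (v 0 ^ 2 + v 1 ^ 2 + v 2 ^ 2) - tot v ^ 2 / 2 := by
  simp only [nsq, tot]; ring

theorem magV_perm (v : Fin 3 → ℝ) (σ : Perm (Fin 3)) : magV (v ∘ σ) = magV v := by
  obtain ⟨a, b⟩ := comp_sums v σ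
  show mag _ _ _ = mag _ _ _
  simp only [mag, nsq_eq, a, b]
  rw [show (v ∘ σ) 0 + (v ∘ σ) 1 + (v ∘ σ) 2 = tot v from a]; rfl

theorem rf_P4_eq (v : Fin 3 → ℝ) (h : tot v ≠ 0) :
    rf P4 v = 12 * nsq (v 0) (v 1) (v 2) ^ 2 / tot v ^ 3 := by
  have e : P2 (rr v) = 6 * nsq (v 0) (v 1) (v 2) / tot v ^ 2 := by
    simp only [P2, rr]; field_simp; simp only [nsq, tot]; ring
  rw [rf, P4, e]; field_simp; ring

theorem grid_mem (h : topOK G K P = true) : 0 < G ∧ ∀ v ∈ gridList K P,
    tot (R v) = (G : ℝ) := by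
  obtain ⟨hG, -, -, hall⟩ := topOK_spec h
  refine ⟨hG, fun v hv => ?_⟩
  simp only [gridList, mapK_eq, List.mem_map, List.mem_range] at hv
  obtain ⟨j, hj, rfl⟩ := hv
  show ((gv P j).1 : ℝ) + ((gv P j).2.1 : ℝ) + ((gv P j).2.2 : ℝ) = G
  exact_mod_cast hall j hj

/-- The magnetisation functional of a grid channel. -/
theorem fval_magV_gch (h : topOK G K P = true) (m : List ℕ) (S : ℕ) :
    fval magV (gch (gridList K P) m S) =
      6 * (dot m (mapK nsqN (gridList K P)) : ℕ) / (G * S) := by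
  obtain ⟨hG, hall⟩ := grid_mem h
  rw [fval_gch' posi_magV.smul, List.map_congr_left (g := fun v => (6 / G : ℝ) * nsqN v) fun v hv => by
    rw [sym_const _ _ (magV_perm (R v)), nsqN_cast]
    show 6 * (nsq _ _ _ / tot (R v)) = _
    rw [hall v hv]; simp [R]; ring, rdot_cast]
  have : (G : ℝ) ≠ 0 := (Nat.cast_pos.2 hG).ne'
  field_simp

/-- The fourth moment functional of a grid channel. -/
theorem fval_P4_gch (h : topOK G K P = true) (m : List ℕ) (S : ℕ) :
    fval (rf P4) (gch (gridList K P) m S) =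
      72 * (dot m (mapK (fun v => nsqN v * nsqN v) (gridList K P)) : ℕ) / ((G : ℝ) ^ 3 * S) := by
  obtain ⟨hG, hall⟩ := grid_mem h
  have hG' : (G : ℝ) ≠ 0 := (Nat.cast_pos.2 hG).ne'
  rw [fval_gch' (fun c v _ _ => rf_smul P4 c v),
    List.map_congr_left (g := fun v => (72 / (G : ℝ) ^ 3) * ((nsqN v * nsqN v : ℕ) : ℝ))
      fun v hv => by
    have ht : tot (R v) ≠ 0 := by rw [hall v hv]; exact hG'
    rw [sym_const _ _ fun σ => by
      obtain ⟨a, b⟩ := comp_sums (R v) σ
      rw [rf_P4_eq _ (by rw [a]; exact ht), rf_P4_eq _ ht, nsq_eq, nsq_eq, a, b],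
      rf_P4_eq _ ht, hall v hv, Nat.cast_mul, nsqN_cast]
    simp [R]; ring, rdot_cast]
  field_simp

/-- The state itself, as a grid channel. -/
theorem domP_perfect {ps : List ℕ} {U : ℕ} (h : topOK G K P = true) (hl : ps.length = K)
    (hU : 0 < U) (hc : U ≤ 2 * G * ps.getD 0 0) : DomP perfect (gch (gridList K P) ps U) := by
  intro f hf
  obtain ⟨hG, hK, h0, -⟩ := topOK_spec h
  have hp : ∀ i : Fin 3, ∀ j, 0 ≤ perfect i j := fun i j => by
    simp only [perfect]; split <;> norm_num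
  have hsum : fval f perfect = f (perfect 0) + f (perfect 1) + f (perfect 2) := by
    simp [fval, Fin.sum_univ_three]
  obtain ⟨τ, hτ, he⟩ := sum_perm fun σ => f (R (gv P 0) ∘ σ)
  have key : sym f (R (gv P 0)) = 2 * G * fval f perfect := by
    have one : ∀ (k : Fin 6) (i : Fin 3), tperm k.val ((G, 0, 0) : T) =
        ((if i = 0 then G else 0), (if i = 1 then G else 0), (if i = 2 then G else 0)) →
        f (R (gv P 0) ∘ τ k) = (G : ℝ) * f (perfect i) := fun k i hk => by
      rw [h0, ← hτ, hk, show R _ = (G : ℝ) • perfect i from funext fun j => by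
        fin_cases i <;> fin_cases j <;> simp [R, perfect]]
      exact hf.smul _ _ (Nat.cast_nonneg G) (hp i)
    rw [sym, he, hsum, Fin.sum_univ_six, one 0 0 rfl, one 1 2 rfl, one 2 1 rfl, one 3 0 rfl,
      one 4 2 rfl, one 5 1 rfl]
    ring
  rw [fval_gch hf.toSublin, gridList, mapK_eq, List.map_map, ← val_eq_rdot _ ps K hl,
    le_div_iff₀ (Nat.cast_pos.2 hU)]
  refine le_trans ?_ (Finset.single_le_sum (fun j _ => mul_nonneg (Nat.cast_nonneg _)
    (sym_nonneg hf (R_nonneg _))) (Finset.mem_range.2 hK))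
  show fval f perfect * U ≤ (ps.getD 0 0 : ℝ) * sym f (R (gv P 0))
  have hc' : (U : ℝ) ≤ 2 * G * (ps.getD 0 0 : ℝ) := by exact_mod_cast hc
  rw [key]
  nlinarith [mul_le_mul_of_nonneg_left hc' (hf.fval_nonneg hp)]

/-- The channel showing nothing, as one vector. -/
theorem domP_blind : DomP blind (gch [((1, 1, 1) : T)] [1] 6) := by
  intro f hf
  rw [fval_gch hf.toSublin]
  have e : R ((1, 1, 1) : T) = fun _ => (1 : ℝ) := by funext i; fin_cases i <;> simp [R]
  simp only [List.map_cons, List.map_nil, rdot, e]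
  rw [sym_const f _ fun σ => rfl]
  simp [fval]
  exact le_rfl

/-- A bound for a node from a chain over the number of children, the tail seeing the state. -/
theorem NodeBound.mix {Ω Ξ Ω' : Type} [Fintype Ω] [Fintype Ξ] [Fintype Ω'] {α : ℕ → Type}
    [∀ k, Fintype (α k)] {D lam s : ℝ} {n N : ℕ} {L : Ω → Fin 3 → ℝ} {E : Ξ → Fin 3 → ℝ}
    {M : Ω' → Fin 3 → ℝ} {Q : ∀ k, α k → Fin 3 → ℝ} (hD : 0 ≤ D) (hs0 : 0 ≤ s)
    (h0 : -1 / 2 ≤ lam) (h1 : lam ≤ 1) (hL : GWBound D lam n L) (hE : DomP (edge lam L) E)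
    (hE0 : ∀ η i, 0 ≤ E η i) (hQ0 : ∀ k η i, 0 ≤ Q k η i) (hz : DomP blind (Q 0))
    (hs : ∀ k, k + 1 < N → DomP (tens E (Q k)) (Q (k + 1)))
    {c : ℕ → ℝ} {τ : ℝ} (hc : ∀ k < N, poissonWeight s k ≤ c k)
    (hτ : 1 ≤ ∑ k ∈ Finset.range N, poissonWeight s k + τ)
    (hM : ∀ f, Posi f →
      (∑ k ∈ Finset.range N, c k * fval f (Q k)) + τ * fval f perfect ≤ fval f M) :
    NodeBound D lam n s M := by
  intro f hf
  refine le_trans ?_ (hM f hf)
  set Φ := fun k => childAvg D lam n k f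
  have hp := poissonWeight_nonneg hs0
  have hΦ : ∀ k, |Φ k| ≤ fval f perfect := fun k =>
    abs_piAvg_le (gwWeight_nonneg hD n) (hasSum_gw hD n) fun g => by
      have sS : IsStoch (prodL fun c => edge lam (lik lam n (g c))) :=
        isStoch_prodL fun c => (isStoch_lik h0 h1 n _).edge h0 h1
      rw [abs_of_nonneg (hf.fval_nonneg sS.1)]
      exact dom_perfect sS f hf.toSublin
  have sΦ : Summable fun k => poissonWeight s k * Φ k :=
    summable_weighted hp (hasSum_poisson s).summable hΦ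
  show ∑' k, poissonWeight s k * Φ k ≤ _
  rw [← sΦ.sum_add_tsum_nat_add N]
  refine add_le_add (Finset.sum_le_sum fun k hk => ?_) ?_
  · exact (mul_le_mul_of_nonneg_left
      (piAvg_le_chain hD h0 h1 hL hE hE0 hz hs (Finset.mem_range.1 hk) hf) (hp k)).trans
      (mul_le_mul_of_nonneg_right (hc k (Finset.mem_range.1 hk)) (hf.fval_nonneg (hQ0 k)))
  · have ht : Summable fun i => poissonWeight s (i + N) :=
      (hasSum_poisson s).summable.comp_injective (i := fun i => i + N) (add_left_injective N)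
    have htail : ∑' i, poissonWeight s (i + N) ≤ τ := by
      linarith [(hasSum_poisson s).summable.sum_add_tsum_nat_add N, (hasSum_poisson s).tsum_eq]
    calc ∑' i, poissonWeight s (i + N) * Φ (i + N)
        ≤ ∑' i, poissonWeight s (i + N) * fval f perfect :=
          (summable_weighted (fun i => hp (i + N)) ht fun i => hΦ (i + N)).tsum_le_tsum
            (fun i => mul_le_mul_of_nonneg_left (abs_le.1 (hΦ (i + N))).2 (hp _)) (ht.mul_right _)
      _ ≤ τ * fval f perfect := by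
          rw [tsum_mul_right]
          exact mul_le_mul_of_nonneg_right htail ((abs_nonneg (Φ 0)).trans (hΦ 0))

theorem getD_axpy : ∀ (c : ℕ) (xs ys : List ℕ) (j : ℕ), j < xs.length →
    (axpy c xs ys).getD j 0 = c * xs.getD j 0 + ys.getD j 0
  | _, [], _, j, h => by simp at h
  | c, x :: xs, ys, 0, _ => by simp [axpy]
  | c, x :: xs, ys, j + 1, h => by
    show (axpy c xs (ys.drop 1)).getD j 0 = _
    rw [getD_axpy c xs _ j (by simpa using h)]
    cases ys <;> simp

theorem getD_mix : ∀ (l : List (ℕ × List ℕ)), (∀ e ∈ l, e.2.length = K) → ∀ j < K,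
    (mixList K l).getD j 0 = ∑ k ∈ Finset.range l.length,
      (l.getD k (0, [])).1 * (l.getD k (0, [])).2.getD j 0
  | [], _, j, hj => by simp [mixList, hj]
  | e :: l, h, j, hj => by
    show (axpy e.1 e.2 (mixList K l)).getD j 0 = _
    rw [getD_axpy _ _ _ j (by rw [h e List.mem_cons_self]; exact hj),
      getD_mix l (fun x hx => h x (List.mem_cons_of_mem _ hx)) j hj, List.length_cons,
      Finset.sum_range_succ']
    simp [add_comm]

/-- A verified mixture: `a_k / Dd` times the `k`-th channel, and `τ` times the state. -/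
theorem mix_le {Dd U T₀ : ℕ} {τ : ℝ} {l : List (ℕ × List ℕ)} {ps : List ℕ}
    (htop : topOK G K P = true) (hD : 0 < Dd) (hU : 0 < U)
    (hτ : τ * (Dd * U) ≤ T₀ * (2 * G)) (h : checkMix Dd K T₀ l ps = true)
    {f : (Fin 3 → ℝ) → ℝ} (hf : Posi f) :
    (∑ k ∈ Finset.range l.length, ((l.getD k (0, [])).1 : ℝ) / Dd *
        fval f (gch (gridList K P) (l.getD k (0, [])).2 U)) + τ * fval f perfect ≤
      fval f (gch (gridList K P) ps U) := by
  simp only [checkMix, allK_eq, Bool.and_eq_true, List.all_eq_true] at h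
  obtain ⟨hlen, hcov⟩ := h
  have hlen' : ∀ e ∈ l, e.2.length = K := fun e he => Nat.eq_of_beq_eq_true (hlen e he)
  obtain ⟨hG, hK, h0, -⟩ := topOK_spec htop
  set φ := fun j => sym f (R (gv P j))
  have hc := cover_le hcov htop hf
  have hUR : (0 : ℝ) < U := Nat.cast_pos.2 hU
  have hDR : (0 : ℝ) < Dd := Nat.cast_pos.2 hD
  have hperf : (2 * G : ℝ) * fval f perfect ≤ φ 0 := by
    have e1 : fval f perfect ≤ fval f (gch (gridList K P) (1 :: List.replicate (K - 1) 0) (2 * G)) :=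
      domP_perfect htop (by simp; omega) (by omega) (by simp) f hf
    rw [fval_gch hf.toSublin, gridList, mapK_eq, List.map_map,
      ← val_eq_rdot _ (1 :: List.replicate (K - 1) 0) K (by simp; omega)] at e1
    rw [le_div_iff₀ (Nat.cast_pos.2 (by omega))] at e1
    rw [Finset.sum_eq_single_of_mem 0 (Finset.mem_range.2 hK) fun b _ hb => by
      obtain ⟨b, rfl⟩ := Nat.exists_eq_succ_of_ne_zero hb
      simp [List.getD_eq_getElem?_getD, List.getElem?_replicate]; left; split <;> rfl] at e1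
    push_cast at e1
    simpa [mul_comm, φ] using e1
  have hA : ∑ j ∈ Finset.range K,
      (((mixList K l).getD j 0 + bif Nat.beq j 0 then T₀ else 0 : ℕ) : ℝ) * φ j =
      (∑ k ∈ Finset.range l.length, ((l.getD k (0, [])).1 : ℝ) *
        rdot (l.getD k (0, [])).2 ((gridList K P).map fun v => sym f (R v))) + T₀ * φ 0 := by
    have hT : ∑ j ∈ Finset.range K, ((bif Nat.beq j 0 then T₀ else 0 : ℕ) : ℝ) * φ j = T₀ * φ 0 := by
      rw [Finset.sum_eq_single_of_mem 0 (Finset.mem_range.2 hK) fun b _ hb => by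
        obtain ⟨b, rfl⟩ := Nat.exists_eq_succ_of_ne_zero hb
        simp [show Nat.beq (b + 1) 0 = false from rfl]]
      simp
    simp only [Nat.cast_add, add_mul, Finset.sum_add_distrib, hT]
    congr 1
    rw [Finset.sum_congr rfl fun j hj => by rw [getD_mix l hlen' j (Finset.mem_range.1 hj)]]
    push_cast
    simp only [Finset.sum_mul]
    rw [Finset.sum_comm]
    refine Finset.sum_congr rfl fun k hk => ?_
    have hk' : k < l.length := Finset.mem_range.1 hk
    have hm : l.getD k (0, []) ∈ l := by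
      rw [List.getD_eq_getElem _ _ hk']; exact List.getElem_mem _
    rw [gridList, mapK_eq, List.map_map, ← val_eq_rdot _ _ K (hlen' _ hm), Finset.mul_sum]
    exact Finset.sum_congr rfl fun j _ => by simp only [φ, Function.comp]; ring
  rw [hA] at hc
  simp only [fval_gch hf.toSublin]
  rw [le_div_iff₀ hUR, add_mul, Finset.sum_mul]
  refine le_of_mul_le_mul_left ?_ hDR
  refine le_trans ?_ hc
  rw [mul_add, Finset.mul_sum]
  refine add_le_add (le_of_eq (Finset.sum_congr rfl fun k _ => by field_simp)) ?_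
  have h1 := mul_le_mul_of_nonneg_right hτ (hf.fval_nonneg fun i j => by
    simp only [perfect]; split <;> norm_num : 0 ≤ fval f perfect)
  have h2 := mul_le_mul_of_nonneg_left hperf (Nat.cast_nonneg (α := ℝ) T₀)
  linarith

end Vale.Agent.P154.Q3.DE
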