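import Vale.Agent.P154.Avg

/-!
# Certified grid channels: definitions for kernel evaluation

A grid channel is given by vectors in `ℕ³`, one per colour orbit, and natural weights. Every
check below is a computation on natural numbers; recursions are stated with recursors, because
the kernel evaluates these fast.
-/

namespace Vale.Agent.P154.Q3.DE

/-- A vector in `ℕ³`. -/
abbrev T := ℕ × ℕ × ℕ

/-- The `j`-th grid vector, packed in `P` with 16 bits per component. -/
def gv (P j : ℕ) : T :=
  ((P >>> (48 * j)) % 65536, (P >>> (48 * j + 16)) % 65536, (P >>> (48 * j + 32)) % 65536)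

/-- The six colour permutations of a vector. -/
noncomputable def tperm (k : ℕ) (v : T) : T :=
  bif Nat.beq k 1 then (v.2.1, v.2.2, v.1) else bif Nat.beq k 2 then (v.2.2, v.1, v.2.1) else
  bif Nat.beq k 3 then (v.1, v.2.2, v.2.1) else bif Nat.beq k 4 then (v.2.2, v.2.1, v.1) else
  bif Nat.beq k 5 then (v.2.1, v.1, v.2.2) else v

/-- Equality of vectors. -/
noncomputable def teq (u v : T) : Bool :=
  Nat.beq u.1 v.1 && (Nat.beq u.2.1 v.2.1 && Nat.beq u.2.2 v.2.2)

/-- Componentwise product. -/
def tmul (u v : T) : T := (u.1 * v.1, u.2.1 * v.2.1, u.2.2 * v.2.2)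

/-- Scaling. -/
def tsmul (c : ℕ) (v : T) : T := (c * v.1, c * v.2.1, c * v.2.2)

/-- The image of a vector under the edge of eigenvalue `-p/q`, times `3q`. -/
def eV (p q : ℕ) (v : T) : T :=
  ((q + p) * (v.1 + v.2.1 + v.2.2) - 3 * p * v.1, (q + p) * (v.1 + v.2.1 + v.2.2) - 3 * p * v.2.1,
    (q + p) * (v.1 + v.2.1 + v.2.2) - 3 * p * v.2.2)

/-- A target: grid index, colour permutation, weight. -/
abbrev Entry := ℕ × ℕ × ℕ

/-- A row of a table: a tag and one list of targets for each vector to be split. -/
abbrev Item := ℕ × List (List Entry)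

/-! ### Lists -/

/-- Map. -/
noncomputable def mapK {α β : Type} (f : α → β) (l : List α) : List β :=
  List.rec (motive := fun _ => List β) [] (fun a _ r => f a :: r) l

theorem mapK_eq {α β : Type} (f : α → β) : ∀ l : List α, mapK f l = l.map f
  | [] => rfl
  | a :: l => by show f a :: mapK f l = _; rw [mapK_eq f l, List.map_cons]

/-- Concatenation. -/
noncomputable def catK {α : Type} (l : List (List α)) : List α :=
  List.rec (motive := fun _ => List α) []
    (fun a _ r => List.rec (motive := fun _ => List α) r (fun x _ u => x :: u) a) l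

theorem catK_eq {α : Type} : ∀ l : List (List α), catK l = l.flatten
  | [] => rfl
  | a :: l => by
    show List.rec (motive := fun _ => List α) (catK l) (fun x _ u => x :: u) a = _
    rw [catK_eq l]
    induction a with
    | nil => rfl
    | cons x a ih => simpa using ih

/-- All elements pass. -/
noncomputable def allK {α : Type} (f : α → Bool) (l : List α) : Bool :=
  List.rec (motive := fun _ => Bool) true (fun a _ r => f a && r) l

theorem allK_eq {α : Type} (f : α → Bool) : ∀ l : List α, allK f l = l.all f
  | [] => rfl
  | a :: l => by show (f a && allK f l) = _; rw [allK_eq f l, List.all_cons]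

/-- Sum. -/
noncomputable def sumK (l : List ℕ) : ℕ :=
  List.rec (motive := fun _ => ℕ) 0 (fun a _ r => Nat.add a r) l

theorem sumK_eq : ∀ l : List ℕ, sumK l = l.sum
  | [] => rfl
  | a :: l => by show a + sumK l = _; rw [sumK_eq l, List.sum_cons]

/-- Simultaneous test of two lists of equal length. -/
noncomputable def all2 {α β : Type} (f : α → β → Bool) (l : List α) : List β → Bool :=
  List.rec (motive := fun _ => List β → Bool)
    (fun m => List.rec (motive := fun _ => Bool) true (fun _ _ _ => false) m)
    (fun a _ ih m => List.rec (motive := fun _ => Bool) false (fun b u _ => f a b && ih u) m) l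

theorem all2_spec {α β : Type} (f : α → β → Bool) : ∀ (l : List α) (m : List β),
    all2 f l m = true → l.length = m.length ∧ ∀ p ∈ l.zip m, f p.1 p.2 = true
  | [], [], _ => by simp
  | [], _ :: _, h => absurd h Bool.false_ne_true
  | _ :: _, [], h => absurd h Bool.false_ne_true
  | a :: l, b :: m, h => by
    obtain ⟨h1, h2⟩ : f a b = true ∧ all2 f l m = true := by
      simpa [Bool.and_eq_true] using (show (f a b && all2 f l m) = true from h)
    obtain ⟨i1, i2⟩ := all2_spec f l m h2
    refine ⟨by simp [i1], fun p hp => ?_⟩
    rcases List.mem_cons.1 (by simpa using hp) with rfl | hp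
    · exact h1
    · exact i2 p hp

/-- Weighted sum. -/
noncomputable def dot (cs : List ℕ) : List ℕ → ℕ :=
  List.rec (motive := fun _ => List ℕ → ℕ) (fun _ => 0)
    (fun c _ ih rs => List.rec (motive := fun _ => ℕ) 0
      (fun r rs _ => Nat.add (Nat.mul c r) (ih rs)) rs) cs

theorem dot_cons (c : ℕ) (cs : List ℕ) (r : ℕ) (rs : List ℕ) :
    dot (c :: cs) (r :: rs) = c * r + dot cs rs := rfl

theorem dot_nil_left (rs : List ℕ) : dot [] rs = 0 := rfl

theorem dot_nil_right (cs : List ℕ) : dot cs [] = 0 := by cases cs <;> rfl

/-- `c` times the first list plus the second, entrywise, of the length of the first. -/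
noncomputable def axpy (c : ℕ) (xs : List ℕ) : List ℕ → List ℕ :=
  List.rec (motive := fun _ => List ℕ → List ℕ) (fun _ => [])
    (fun x _ ih ys => Nat.add (Nat.mul c x) (ys.getD 0 0) :: ih (ys.drop 1)) xs

/-! ### Targets -/

/-- The combination of grid vectors described by a list of targets. -/
noncomputable def comb (P : ℕ) (es : List Entry) : T :=
  List.rec (motive := fun _ => T) (0, 0, 0) (fun e _ r =>
    (Nat.add (Nat.mul e.2.2 (tperm e.2.1 (gv P e.1)).1) r.1,
      Nat.add (Nat.mul e.2.2 (tperm e.2.1 (gv P e.1)).2.1) r.2.1,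
      Nat.add (Nat.mul e.2.2 (tperm e.2.1 (gv P e.1)).2.2) r.2.2)) es

theorem comb_nil (P : ℕ) : comb P [] = (0, 0, 0) := rfl

theorem comb_cons (P : ℕ) (j k w : ℕ) (es : List Entry) :
    comb P ((j, k, w) :: es) = (w * (tperm k (gv P j)).1 + (comb P es).1,
      w * (tperm k (gv P j)).2.1 + (comb P es).2.1,
      w * (tperm k (gv P j)).2.2 + (comb P es).2.2) := rfl

/-- Total weight sent to `j`. -/
def wt (j : ℕ) : List Entry → ℕ
  | [] => 0
  | e :: es => (bif e.1 == j then e.2.2 else 0) + wt j es

/-- Total weight. -/
noncomputable def wsum (es : List Entry) : ℕ :=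
  List.rec (motive := fun _ => ℕ) 0 (fun e _ r => Nat.add e.2.2 r) es

/-- The packed row, `W` bits per orbit; the lowest slot holds the tag, which makes the packed
rows differ in their last word. -/
noncomputable def code (W : ℕ) (it : Item) : ℕ :=
  it.1 + sumK (mapK (fun e => e.2.2 <<< (W * (e.1 + 1))) (catK it.2))

/-- The test that the rows of a table have the given codes. -/
noncomputable def codesOK (W : ℕ) (tb : List Item) (cd : List ℕ) : Bool :=
  all2 (fun it c => Nat.beq (code W it) c) tb cd

theorem codesOK_eq {W : ℕ} : ∀ {tb : List Item} {cd : List ℕ},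
    codesOK W tb cd = true → tb.map (code W) = cd
  | [], [], _ => rfl
  | [], _ :: _, h => absurd h Bool.false_ne_true
  | _ :: _, [], h => absurd h Bool.false_ne_true
  | it :: tb, c :: cd, h => by
    obtain ⟨h1, h2⟩ : Nat.beq (code W it) c = true ∧ codesOK W tb cd = true := by
      simpa [Bool.and_eq_true] using (show (Nat.beq (code W it) c && codesOK W tb cd) = true from h)
    rw [List.map_cons, codesOK_eq h2, Nat.eq_of_beq_eq_true h1]

/-- Targets are in range, and tag and total weight are at most `B`. -/
noncomputable def itemOK (K B : ℕ) (it : Item) : Bool :=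
  Nat.ble it.1 B && Nat.ble (wsum (catK it.2)) B &&
    allK (fun e => Nat.blt e.1 K) (catK it.2)

/-- Targets packed in `n` fields of `E` bits: index 12 bits, permutation 4 bits, then weight. -/
noncomputable def decEntries (E : ℕ) : ℕ → ℕ → List Entry :=
  Nat.rec (motive := fun _ => ℕ → List Entry) (fun _ => [])
    (fun _ ih x => (x % 4096, (x >>> 12) % 16, (x % 2 ^ E) >>> 16) :: ih (x >>> E))

/-- `b` lists of `n` packed targets each. -/
noncomputable def decBlocks (E n : ℕ) : ℕ → ℕ → List (List Entry) :=
  Nat.rec (motive := fun _ => ℕ → List (List Entry)) (fun _ => [])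
    (fun _ ih x => decEntries E n x :: ih (x >>> (E * n)))

/-- A table of packed rows, tagged by consecutive numbers. -/
noncomputable def decTable (E n b : ℕ) (l : List ℕ) : ℕ → List Item :=
  List.rec (motive := fun _ => ℕ → List Item) (fun _ => [])
    (fun x _ ih t => (t, decBlocks E n b x) :: ih (Nat.add t 1)) l

/-! ### Tables -/

/-- The grid as a list. -/
noncomputable def gridList (K P : ℕ) : List T := mapK (gv P) (List.range K)

/-- The split of one vector. -/
noncomputable def singleOK (c P : ℕ) (a : T) (it : Item) : Bool :=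
  List.rec (motive := fun _ => Bool) false
    (fun es t _ => List.rec (motive := fun _ => Bool) (teq (comb P es) (tsmul c a))
      (fun _ _ _ => false) t) it.2

/-- The split of the six products of two orbits. -/
noncomputable def pairOK (c P : ℕ) (ab : T × T) (it : Item) : Bool :=
  List.rec (motive := fun _ => ℕ → Bool) (fun k => Nat.beq k 6)
    (fun es _ ih k => teq (comb P es) (tsmul c (tmul ab.1 (tperm k ab.2))) && ih (Nat.add k 1))
    it.2 0

/-- The pairs `a ≤ b` of a list, row by row. -/
noncomputable def pairUp {α : Type} (l : List α) : List (α × α) :=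
  List.rec (motive := fun _ => List (α × α)) [] (fun x t ih =>
    (x, x) :: List.rec (motive := fun _ => List (α × α)) ih (fun y _ r => (x, y) :: r) t) l

/-- All pairs of two lists. -/
noncomputable def pairAll {α : Type} (xs ys : List α) : List (α × α) :=
  List.rec (motive := fun _ => List (α × α)) []
    (fun x _ ih => List.rec (motive := fun _ => List (α × α)) ih (fun y _ r => (x, y) :: r) ys) xs

/-- One row of pair weights. -/
noncomputable def coefRow (x y : ℕ) (acc : List ℕ) (xs : List ℕ) : List ℕ → List ℕ :=
  List.rec (motive := fun _ => List ℕ → List ℕ) (fun _ => acc)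
    (fun a _ ih ys => List.rec (motive := fun _ => List ℕ) acc
      (fun b bs _ => Nat.add (Nat.mul x b) (Nat.mul a y) :: ih bs) ys) xs

/-- The weights of the pairs `a ≤ b` in the product of two lists of masses. -/
noncomputable def coefUp (xs : List ℕ) : List ℕ → List ℕ :=
  List.rec (motive := fun _ => List ℕ → List ℕ) (fun _ => [])
    (fun x t ih ys => List.rec (motive := fun _ => List ℕ) []
      (fun y u _ => Nat.mul x y :: coefRow x y (ih u) t u) ys) xs

/-- The weights of all pairs. -/
noncomputable def coefAll (xs ys : List ℕ) : List ℕ :=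
  List.rec (motive := fun _ => List ℕ) []
    (fun x _ ih => List.rec (motive := fun _ => List ℕ) ih (fun y _ r => Nat.mul x y :: r) ys) xs

/-- A table splitting the vectors `xs`, scaled by `c`. -/
noncomputable def singleTableOK (c K B P : ℕ) (xs : List T) (tb : List Item) : Bool :=
  all2 (fun a it => singleOK c P a it && itemOK K B it) xs tb

/-- A table splitting the products of pairs, scaled by `c`. -/
noncomputable def pairTableOK (c K B P : ℕ) (prs : List (T × T)) (tb : List Item) : Bool :=
  all2 (fun ab it => pairOK c P ab it && itemOK K B it) prs tb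

/-- Orbit `0` is the vertex and all grid vectors have the same total. -/
noncomputable def topOK (G K P : ℕ) : Bool :=
  decide (0 < G) && decide (0 < K) && teq (gv P 0) (G, 0, 0) &&
    allK (fun v => Nat.beq (v.1 + v.2.1 + v.2.2) G) (gridList K P)

/-! ### Slot tests -/

/-- Entry `j` of what is received: the slot of a packed sum. -/
def slot (W X j : ℕ) : ℕ := (X >>> (W * (j + 1))) % 2 ^ W

/-- The surplus of the orbits `s, s+1, …`, except orbit `0`, over the claimed masses. -/
noncomputable def surplus (A : ℕ → ℕ) (C : ℕ) (ps : List ℕ) : ℕ → ℕ :=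
  List.rec (motive := fun _ => ℕ → ℕ) (fun _ => 0)
    (fun p _ ih j => Nat.add (bif Nat.beq j 0 then 0 else A j - Nat.mul C p) (ih (Nat.add j 1))) ps

/-- Claimed masses `ps` cover received masses `A` scaled by `1/C`, the surplus of every orbit
being moved to orbit `0`. -/
noncomputable def coverOK (A : ℕ → ℕ) (C K : ℕ) (ps : List ℕ) : Bool :=
  Nat.beq ps.length K && Nat.ble (A 0 + surplus A C ps 0) (C * ps.getD 0 0)

/-- The test of one step. -/
noncomputable def checkLevel (W K B U C : ℕ) (cs codes ps : List ℕ) : Bool :=
  Nat.blt (sumK cs * B) (2 ^ W) && coverOK (fun j => U * slot W (dot cs codes) j) C K ps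

/-- A mixture `Σ aᵢ mᵢ`. -/
noncomputable def mixList (K : ℕ) (l : List (ℕ × List ℕ)) : List ℕ :=
  List.rec (motive := fun _ => List ℕ) (List.replicate K 0) (fun e _ r => axpy e.1 e.2 r) l

/-- The test of a mixture with weights over `D`; `T₀` is the mass of the perfect channel. -/
noncomputable def checkMix (D K T₀ : ℕ) (l : List (ℕ × List ℕ)) (ps : List ℕ) : Bool :=
  allK (fun e => Nat.beq e.2.length K) l &&
    coverOK (fun j => (mixList K l).getD j 0 + bif Nat.beq j 0 then T₀ else 0) D K ps

end Vale.Agent.P154.Q3.DE
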