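import Vale.Agent.P154.DE.Sound

/-!
# What the slot tests certify
-/

namespace Vale.Agent.P154.Q3.DE

open scoped BigOperators
open Equiv

variable {W G P K B U C D : ℕ} {cs ps : List ℕ} {its : List Item}

theorem topOK_spec (h : topOK G K P = true) : 0 < G ∧ 0 < K ∧ gv P 0 = (G, 0, 0) ∧
    ∀ j < K, (gv P j).1 + (gv P j).2.1 + (gv P j).2.2 = G := by
  simp only [topOK, gridList, teq, allK_eq, mapK_eq, Bool.and_eq_true, decide_eq_true_eq,
    List.all_eq_true, List.mem_map, List.mem_range] at h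
  obtain ⟨⟨⟨hG, hK⟩, a, b, c⟩, hall⟩ := h
  exact ⟨hG, hK, Prod.ext (Nat.eq_of_beq_eq_true a)
    (Prod.ext (Nat.eq_of_beq_eq_true b) (Nat.eq_of_beq_eq_true c)),
    fun j hj => Nat.eq_of_beq_eq_true (hall _ ⟨j, hj, rfl⟩)⟩

/-- Digits are recovered by division. -/
theorem digit (B : ℕ) : ∀ (N : ℕ) (A : ℕ → ℕ), (∀ i < N, A i < B) → ∀ j < N,
    (∑ i ∈ Finset.range N, A i * B ^ i) / B ^ j % B = A j
  | 0, _, _, j, hj => absurd hj (Nat.not_lt_zero j)
  | N + 1, A, hA, j, hj => by
    have h0 : A 0 < B := hA 0 (Nat.succ_pos N)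
    have e : ∑ i ∈ Finset.range (N + 1), A i * B ^ i =
        A 0 + B * ∑ i ∈ Finset.range N, A (i + 1) * B ^ i := by
      rw [Finset.sum_range_succ', Finset.mul_sum, add_comm]
      simp only [pow_zero, mul_one, pow_succ]
      exact congrArg (A 0 + ·) (Finset.sum_congr rfl fun i _ => by ring)
    rw [e]
    rcases j with - | j
    · simp [Nat.mod_eq_of_lt h0]
    · rw [pow_succ', ← Nat.div_div_eq_div_mul, Nat.add_mul_div_left _ _ (by omega),
        Nat.div_eq_of_lt h0, zero_add]
      exact digit B N (fun i => A (i + 1)) (fun i hi => hA (i + 1) (by omega)) j (by omega)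

/-- The weighted sum of a function of the items. -/
noncomputable def dotN (h : Item → ℕ) (cs : List ℕ) (its : List Item) : ℕ := dot cs (its.map h)

theorem dotN_cons (h : Item → ℕ) (c : ℕ) (cs : List ℕ) (it : Item) (its : List Item) :
    dotN h (c :: cs) (it :: its) = c * h it + dotN h cs its := rfl

theorem dotN_le (h : Item → ℕ) (B : ℕ) : ∀ (cs : List ℕ) (its : List Item),
    (∀ it ∈ its, h it ≤ B) → dotN h cs its ≤ cs.sum * B
  | [], its, _ => by cases its <;> simp [dotN, dot_nil_left, dot_nil_right]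
  | c :: cs, [], _ => by simp [dotN, dot_nil_left, dot_nil_right]
  | c :: cs, it :: its, hb => by
    rw [dotN_cons, List.sum_cons, add_mul]
    exact Nat.add_le_add (Nat.mul_le_mul_left c (hb it List.mem_cons_self))
      (dotN_le h B cs its fun x hx => hb x (List.mem_cons_of_mem _ hx))

theorem code_eq (W K : ℕ) : ∀ (tag : ℕ) (es : List Entry),
    (es.all fun e => decide (e.1 < K)) = true →
    tag + (es.map fun e => e.2.2 <<< (W * (e.1 + 1))).sum =
      tag + ∑ j ∈ Finset.range K, wt j es * (2 ^ W) ^ (j + 1)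
  | tag, [], _ => by simp [wt]
  | tag, (j, k, w) :: es, h => by
    simp only [List.all_cons, Bool.and_eq_true, decide_eq_true_eq] at h
    have ih := code_eq W K 0 es h.2
    simp only [zero_add] at ih
    have hs : ∑ i ∈ Finset.range K, (bif j == i then w else 0) * (2 ^ W) ^ (i + 1) =
        w <<< (W * (j + 1)) := by
      rw [Finset.sum_eq_single_of_mem j (Finset.mem_range.2 h.1)]
      · rw [show (j == j) = true from beq_self_eq_true j, cond_true, Nat.shiftLeft_eq, pow_mul]
      · intro b _ hb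
        rw [show (j == b) = false from beq_eq_false_iff_ne.2 hb.symm]
        simp
    simp only [List.map_cons, List.sum_cons, ih, wt, add_mul, Finset.sum_add_distrib, hs]

theorem dotN_code (W K : ℕ) : ∀ (cs : List ℕ) (its : List Item),
    (∀ it ∈ its, (it.2.flatten.all fun e => decide (e.1 < K)) = true) →
    dotN (code W) cs its = dotN (fun it => it.1) cs its +
      ∑ j ∈ Finset.range K, dotN (fun it => wt j it.2.flatten) cs its * (2 ^ W) ^ (j + 1)
  | [], its, _ => by cases its <;> simp [dotN, dot_nil_left, dot_nil_right]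
  | c :: cs, [], _ => by simp [dotN, dot_nil_left, dot_nil_right]
  | c :: cs, it :: its, h => by
    simp only [dotN_cons, dotN_code W K cs its fun x hx => h x (List.mem_cons_of_mem _ hx),
      add_mul, Finset.sum_add_distrib, mul_assoc, ← Finset.mul_sum]
    rw [code, sumK_eq, mapK_eq, catK_eq, code_eq W K it.1 _ (h it List.mem_cons_self)]
    ring

theorem wt_le (j : ℕ) : ∀ es : List Entry, wt j es ≤ wsum es
  | [] => le_rfl
  | e :: es => by
    rw [show wsum (e :: es) = e.2.2 + wsum es from rfl, wt]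
    refine Nat.add_le_add ?_ (wt_le j es)
    cases e.1 == j <;> simp

theorem rdot_le (φ : ℕ → ℝ) (K : ℕ) {α : Type} (F : α → ℝ) (c : ℝ) :
    ∀ (cs : List ℕ) (xs : List α) (its : List Item), xs.length = its.length →
    (∀ p ∈ xs.zip its, c * F p.1 ≤ ∑ j ∈ Finset.range K, (wt j p.2.2.flatten : ℝ) * φ j) →
    c * rdot cs (xs.map F) ≤
      ∑ j ∈ Finset.range K, (dotN (fun it => wt j it.2.flatten) cs its : ℝ) * φ j
  | [], xs, its, _, _ => by cases xs <;> cases its <;> simp [dotN, dot_nil_left, dot_nil_right, rdot]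
  | a :: cs, [], its, hl, _ => by
    rw [List.length_eq_zero_iff.1 hl.symm]; simp [dotN, dot_nil_left, dot_nil_right, rdot]
  | a :: cs, x :: xs, [], hl, _ => by simp at hl
  | a :: cs, x :: xs, it :: its, hl, h => by
    have ih := rdot_le φ K F c cs xs its (by simpa using hl) fun p hp =>
      h p (by rw [List.zip_cons_cons]; exact List.mem_cons_of_mem _ hp)
    have h1 := h (x, it) (by rw [List.zip_cons_cons]; exact List.mem_cons_self)
    have h2 := mul_le_mul_of_nonneg_left h1 (Nat.cast_nonneg (α := ℝ) a)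
    simp only [List.map_cons, rdot, dotN_cons, Nat.cast_add, Nat.cast_mul, add_mul,
      Finset.sum_add_distrib, mul_assoc, ← Finset.mul_sum]
    linarith

theorem val_eq_rdot (g : ℕ → ℝ) : ∀ (m : List ℕ) (K : ℕ), m.length = K →
    ∑ j ∈ Finset.range K, (m.getD j 0 : ℝ) * g j = rdot m ((List.range K).map g)
  | [], K, h => by subst h; simp [rdot]
  | a :: m, K, h => by
    subst h
    rw [List.length_cons, Finset.sum_range_succ', List.range_succ_eq_map, List.map_cons,
      List.map_map, rdot]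
    simp only [List.getD_cons_succ, List.getD_cons_zero]
    rw [val_eq_rdot (fun j => g (j + 1)) m m.length rfl, add_comm]
    rfl

/-- Every grid vector is below the vertex. -/
theorem sym_le_top {G K P : ℕ} (ht : topOK G K P = true) {f} (hf : Posi f) {j : ℕ}
    (hj : j < K) : sym f (R (gv P j)) ≤ sym f (R (gv P 0)) := by
  obtain ⟨hG, -, h0, hall⟩ := topOK_spec ht
  have hsum := hall j hj
  rw [h0]
  set v := gv P j
  set u : T := (G, 0, 0)
  obtain ⟨τ, hτ, -⟩ := sum_perm fun _ => (0 : ℝ)
  have e : (G : ℝ) • R v = (v.1 : ℝ) • R u +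
      ((v.2.1 : ℝ) • R (tperm 2 u) + (v.2.2 : ℝ) • R (tperm 1 u)) := by
    funext i; fin_cases i <;> simp [R, u, tperm, show Nat.beq 2 1 = false from rfl,
      show Nat.beq 1 2 = false from rfl, show Nat.beq 1 1 = true from rfl, show Nat.beq 2 2 = true from rfl] <;> ring
  have hs : sym f ((G : ℝ) • R v) ≤ (G : ℝ) * sym f (R u) := by
    have h1 : ∀ w : Fin 3 → ℝ, (∀ i, 0 ≤ w i) → ∀ c : ℕ,
        sym f ((c : ℝ) • w) = (c : ℝ) * sym f w := fun w hw c => by
      simp only [sym, Finset.mul_sum]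
      exact Finset.sum_congr rfl fun σ _ =>
        hf.smul c (w ∘ σ) (Nat.cast_nonneg c) fun i => hw _
    have h2 : ∀ x y : Fin 3 → ℝ, (∀ i, 0 ≤ x i) → (∀ i, 0 ≤ y i) →
        sym f (x + y) ≤ sym f x + sym f y := fun x y hx hy => by
      simp only [sym, ← Finset.sum_add_distrib]
      exact Finset.sum_le_sum fun σ _ => hf.add (x ∘ σ) (y ∘ σ) (fun i => hx _) fun i => hy _
    have hn : ∀ (c : ℕ) (w : T) i, 0 ≤ ((c : ℝ) • R w) i := fun c w i =>
      mul_nonneg (Nat.cast_nonneg c) (R_nonneg w i)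
    rw [e]
    refine (h2 _ _ (hn _ _) fun i => add_nonneg (hn _ _ i) (hn _ _ i)).trans ?_
    refine (add_le_add le_rfl (h2 _ _ (hn _ _) (hn _ _))).trans ?_
    rw [h1 _ (R_nonneg _), h1 _ (R_nonneg _), h1 _ (R_nonneg _)]
    obtain ⟨τ1, hτ1⟩ := tperm_spec 1
    obtain ⟨τ2, hτ2⟩ := tperm_spec 2
    rw [hτ1, hτ2, sym_comp, sym_comp]
    have : (v.1 : ℝ) + v.2.1 + v.2.2 = G := by exact_mod_cast hsum
    rw [← this]; linarith
  have hh : sym f ((G : ℝ) • R v) = (G : ℝ) * sym f (R v) := by
    simp only [sym, Finset.mul_sum]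
    exact Finset.sum_congr rfl fun σ _ =>
      hf.smul G (R v ∘ σ) (Nat.cast_nonneg G) fun i => R_nonneg _ _
  rw [hh] at hs
  exact le_of_mul_le_mul_left hs (Nat.cast_pos.2 hG)

/-- The surplus test in terms of sums. -/
theorem surplus_eq (A : ℕ → ℕ) (C : ℕ) : ∀ (ps : List ℕ) (s : ℕ), surplus A C ps s =
    ∑ i ∈ Finset.range ps.length, if s + i = 0 then 0 else A (s + i) - C * ps.getD i 0
  | [], _ => rfl
  | p :: ps, s => by
    show (bif Nat.beq s 0 then 0 else A s - C * p) + surplus A C ps (s + 1) = _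
    rw [surplus_eq A C ps (s + 1), List.length_cons, Finset.sum_range_succ', add_comm]
    refine congrArg₂ (· + ·) (Finset.sum_congr rfl fun i _ => ?_) ?_
    · rw [show s + 1 + i = s + (i + 1) by omega]; simp
    · rcases s with - | s
      · simp
      · simp [show Nat.beq (s + 1) 0 = false from rfl]

/-- Covered masses give a bound by the grid channel. -/
theorem cover_le {A : ℕ → ℕ} (h : coverOK A C K ps = true) (ht : topOK G K P = true) {f} (hf : Posi f) :
    ∑ j ∈ Finset.range K, (A j : ℝ) * sym f (R (gv P j)) ≤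
      (C : ℝ) * rdot ps ((gridList K P).map fun v => sym f (R v)) := by
  obtain ⟨-, hK, -, -⟩ := topOK_spec ht
  simp only [coverOK, Bool.and_eq_true, Nat.ble_eq] at h
  obtain ⟨hlen, key⟩ := h
  have hlen' : ps.length = K := Nat.eq_of_beq_eq_true hlen
  rw [surplus_eq, hlen'] at key
  simp only [Nat.zero_add] at key
  set φ := fun j => sym f (R (gv P j))
  set e := fun j => if j = 0 then 0 else A j - C * ps.getD j 0
  have φ0 : 0 ≤ φ 0 := sym_nonneg hf (R_nonneg _)
  have pt : ∀ j ∈ Finset.range K, (A j : ℝ) * φ j ≤ (C : ℝ) * ((ps.getD j 0 : ℝ) * φ j) +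
      (e j : ℝ) * φ 0 + (if j = 0 then ((A 0 : ℝ) - C * ps.getD 0 0) * φ 0 else 0) := by
    intro j hj
    rcases Nat.eq_zero_or_pos j with rfl | hpos
    · simp only [e, if_pos, Nat.cast_zero, zero_mul, add_zero]; linarith
    have φj : 0 ≤ φ j := sym_nonneg hf (R_nonneg _)
    have hle : φ j ≤ φ 0 := sym_le_top ht hf (Finset.mem_range.1 hj)
    have hex : ((A j : ℕ) : ℝ) ≤ ((C * ps.getD j 0 : ℕ) : ℝ) + (e j : ℝ) := by
      rw [← Nat.cast_add]; refine Nat.cast_le.2 ?_
      simp only [e, if_neg hpos.ne']; omega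
    push_cast at hex
    have := mul_le_mul_of_nonneg_right hex φj
    have := mul_le_mul_of_nonneg_left hle (Nat.cast_nonneg (α := ℝ) (e j))
    rw [if_neg hpos.ne']
    linarith
  rw [gridList, mapK_eq, List.map_map, ← val_eq_rdot _ ps K hlen', Finset.mul_sum]
  refine (Finset.sum_le_sum pt).trans ?_
  rw [Finset.sum_add_distrib, Finset.sum_add_distrib, Finset.sum_ite_eq',
    if_pos (Finset.mem_range.2 hK), ← Finset.sum_mul, add_assoc, ← add_mul]
  have hneg : (∑ j ∈ Finset.range K, (e j : ℝ)) + ((A 0 : ℝ) - C * ps.getD 0 0) ≤ 0 := by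
    have : ((A 0 + ∑ j ∈ Finset.range K, e j : ℕ) : ℝ) ≤ ((C * ps.getD 0 0 : ℕ) : ℝ) :=
      Nat.cast_le.2 key
    push_cast at this
    linarith
  simp only [Function.comp]
  nlinarith [mul_nonpos_of_nonpos_of_nonneg hneg φ0]

theorem coverOK_congr {A A' : ℕ → ℕ} (hA : ∀ j < K, A j = A' j) (hK : 0 < K) :
    coverOK A C K ps = true → coverOK A' C K ps = true := by
  intro h
  simp only [coverOK, Bool.and_eq_true, Nat.ble_eq] at h ⊢
  refine ⟨h.1, le_of_eq_of_le ?_ h.2⟩
  rw [surplus_eq, surplus_eq, hA 0 hK, Nat.eq_of_beq_eq_true h.1]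
  refine congrArg (A' 0 + ·) (Finset.sum_congr rfl fun i hi => ?_)
  rw [Nat.zero_add, hA i (Finset.mem_range.1 hi)]

/-- A verified step turns a bound per row into a bound by the next grid channel. -/
theorem lift {f} (hf : Posi f) {α : Type} {F : α → ℝ} {c : ℝ} {xs : List α}
    (hl : xs.length = its.length) (hok : ∀ it ∈ its, itemOK K B it = true)
    (ht : topOK G K P = true)
    (hF : ∀ p ∈ xs.zip its,
      c * F p.1 ≤ ∑ j ∈ Finset.range K, (wt j p.2.2.flatten : ℝ) * sym f (R (gv P j)))
    (h : checkLevel W K B U C cs (its.map (code W)) ps = true) :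
    (U : ℝ) * (c * rdot cs (xs.map F)) ≤
      (C : ℝ) * rdot ps ((gridList K P).map fun v => sym f (R v)) := by
  simp only [checkLevel, sumK_eq, Bool.and_eq_true, Nat.blt_eq] at h
  have hin := fun it hit => by
    have := hok it hit
    simp only [itemOK, catK_eq, allK_eq, Bool.and_eq_true, Nat.ble_eq] at this
    exact (⟨this.1, by simpa [List.all_eq_true, Nat.blt_eq] using this.2⟩ :
      (it.1 ≤ B ∧ wsum it.2.flatten ≤ B) ∧ (it.2.flatten.all fun e => decide (e.1 < K)) = true)
  let A : ℕ → ℕ := fun i => i.rec (dotN (fun it => it.1) cs its)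
    fun i _ => dotN (fun it => wt i it.2.flatten) cs its
  have hA : ∀ i < K + 1, A i < 2 ^ W := fun i _ => by
    refine lt_of_le_of_lt ?_ h.1
    rcases i with - | i
    · exact dotN_le _ B cs its fun it hit => (hin it hit).1.1
    · exact dotN_le _ B cs its fun it hit => (wt_le i _).trans (hin it hit).1.2
  have hX : dot cs (its.map (code W)) = ∑ i ∈ Finset.range (K + 1), A i * (2 ^ W) ^ i := by
    rw [show dot cs (its.map (code W)) = dotN (code W) cs its from rfl,
      dotN_code W K cs its fun it hit => (hin it hit).2, Finset.sum_range_succ', add_comm]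
    simp [A]
  obtain ⟨-, hK, -, -⟩ := topOK_spec ht
  have hd : ∀ j < K, slot W (dot cs (its.map (code W))) j =
      dotN (fun it => wt j it.2.flatten) cs its := fun j hj => by
    rw [slot, Nat.shiftRight_eq_div_pow, pow_mul, hX, digit (2 ^ W) (K + 1) A hA (j + 1) (by omega)]
  have hc := cover_le (coverOK_congr (A' := fun j => U * dotN (fun it => wt j it.2.flatten) cs its)
    (fun j hj => by rw [hd j hj]) hK h.2) ht hf
  refine le_trans ?_ hc
  refine (mul_le_mul_of_nonneg_left
    (rdot_le _ K F c cs xs its hl hF) (Nat.cast_nonneg U)).trans (le_of_eq ?_)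
  rw [Finset.mul_sum]
  exact Finset.sum_congr rfl fun j _ => by push_cast; ring

end Vale.Agent.P154.Q3.DE
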