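import Vale.Agent.P154.DE.Step

/-!
# Joining two groups of children

A Poisson number of children of mean `s + e` is a group of mean `s` next to a group of mean `e`;
`a + b` children are `a` children next to `b`. Hence a bound for the two groups and one product
step give a bound for the union, and squaring halves the number of steps.
-/

namespace Vale.Agent.P154.Q3.DE

open scoped BigOperators
open Filter

variable {D lam s e : ℝ} {n : ℕ} {f : (Fin 3 → ℝ) → ℝ}
  {α β γ : Type} [Fintype α] [Fintype β] [Fintype γ]
  {A : α → Fin 3 → ℝ} {B : β → Fin 3 → ℝ} {M : γ → Fin 3 → ℝ}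

/-- `f` averaged over an independent channel. -/
def slice (f : (Fin 3 → ℝ) → ℝ) (B : β → Fin 3 → ℝ) : (Fin 3 → ℝ) → ℝ :=
  fun v => ∑ η, f (fun i => v i * B η i)

theorem slice_comm (f : (Fin 3 → ℝ) → ℝ) (A : α → Fin 3 → ℝ) (B : β → Fin 3 → ℝ) :
    slice (slice f A) B = slice (slice f B) A := by
  funext v
  simp only [slice]
  rw [Finset.sum_comm]
  exact Finset.sum_congr rfl fun a _ => Finset.sum_congr rfl fun b _ =>
    congrArg f (funext fun i => by ring)

theorem fval_slice (f : (Fin 3 → ℝ) → ℝ) (A : α → Fin 3 → ℝ) (B : β → Fin 3 → ℝ) :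
    fval (slice f B) A = fval f (tens A B) := (fval_tens f A B).symm

/-- The mean of `f` over a node with `k` independent children. -/
noncomputable def childAvg (D lam : ℝ) (n k : ℕ) (f : (Fin 3 → ℝ) → ℝ) : ℝ :=
  piAvg (gwWeight D n) k fun g => fval f (prodL fun c => edge lam (lik lam n (g c)))

/-- A bound for a node with a Poisson number of children of mean `s`. -/
def NodeBound (D lam : ℝ) (n : ℕ) (s : ℝ) (M : γ → Fin 3 → ℝ) : Prop :=
  ∀ f, Posi f → ∑' k, poissonWeight s k * childAvg D lam n k f ≤ fval f M

theorem abs_childAvg_le (hD : 0 ≤ D) (h0 : -1 / 2 ≤ lam) (h1 : lam ≤ 1) (hf : Sublin f) (k : ℕ) :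
    |childAvg D lam n k f| ≤ fbound f :=
  abs_piAvg_le (gwWeight_nonneg hD n) (hasSum_gw hD n) fun _ =>
    abs_fval_le hf (isStoch_prodL fun _ => (isStoch_lik h0 h1 n _).edge h0 h1)

theorem childAvg_succ (hD : 0 ≤ D) (h0 : -1 / 2 ≤ lam) (h1 : lam ≤ 1) (hf : Sublin f) (k : ℕ) :
    childAvg D lam n (k + 1) f =
      ∑' t, gwWeight D n t * childAvg D lam n k (slice f (edge lam (lik lam n t))) := by
  rw [childAvg, (piAvg_succ (gwWeight_nonneg hD n) (hasSum_gw hD n) (B := fbound f) fun _ =>
    abs_fval_le hf (isStoch_prodL fun _ => (isStoch_lik h0 h1 n _).edge h0 h1)).1]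
  refine tsum_congr fun t => congrArg (gwWeight D n t * ·) ?_
  refine congrArg (piAvg (gwWeight D n) k) (funext fun g => ?_)
  rw [fval_prodL_succ, fval_tens_comm, fval_tens]
  rfl

theorem GWBound.of_node {d : ℝ} (hd : 0 ≤ d) (h0 : -1 / 2 ≤ lam) (h1 : lam ≤ 1)
    (h : NodeBound d lam n d M) : GWBound d lam (n + 1) M := fun f hf => by
  rw [gwAvg_succ hd h0 h1 hf.toSublin]; exact h f hf

theorem NodeBound.trans (h : NodeBound D lam n s A) (h' : DomP A M) : NodeBound D lam n s M :=
  fun f hf => (h f hf).trans (h' f hf)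

theorem poissonWeight_add (s e : ℝ) (k : ℕ) : poissonWeight (s + e) k =
    ∑ i ∈ Finset.range (k + 1), poissonWeight s i * poissonWeight e (k - i) := by
  have h : (s + e) ^ k / (k.factorial : ℝ) = ∑ i ∈ Finset.range (k + 1),
      s ^ i / (i.factorial : ℝ) * (e ^ (k - i) / ((k - i).factorial : ℝ)) := by
    rw [add_pow, Finset.sum_div]
    refine Finset.sum_congr rfl fun i hi => ?_
    rw [Nat.cast_choose ℝ (Nat.lt_succ_iff.1 (Finset.mem_range.1 hi))]
    have : (k.factorial : ℝ) ≠ 0 := by positivity
    field_simp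
  simp only [poissonWeight, mul_div_assoc, neg_add, Real.exp_add, h, Finset.mul_sum]
  exact Finset.sum_congr rfl fun i _ => by ring

theorem tsum_poisson_add (hs : 0 ≤ s) (he : 0 ≤ e) {Φ : ℕ → ℝ} {C : ℝ} (hΦ : ∀ k, |Φ k| ≤ C) :
    ∑' k, poissonWeight (s + e) k * Φ k =
      ∑' i, poissonWeight s i * ∑' j, poissonWeight e j * Φ (i + j) := by
  have ws := poissonWeight_nonneg hs
  have we := poissonWeight_nonneg he
  have hsum := summable_pair ws (hasSum_poisson s).summable we (hasSum_poisson e).summable
    (fun i j => Φ (i + j)) fun i j => hΦ (i + j)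
  have e1 := (tsum_pair_eq ws (hasSum_poisson s).summable we (hasSum_poisson e).summable
    (fun i j => Φ (i + j)) fun i j => hΦ (i + j)).1
  rw [← e1, ← Finset.HasAntidiagonal.sigmaAntidiagonalEquivProd.tsum_eq]
  have hs2 := Finset.HasAntidiagonal.sigmaAntidiagonalEquivProd.summable_iff.2 hsum
  refine Eq.trans ?_ (Summable.tsum_sigma' (fun k => Summable.of_finite) hs2).symm
  refine tsum_congr fun k => ?_
  rw [tsum_fintype, poissonWeight_add, Finset.sum_mul,
    ← Finset.Nat.sum_antidiagonal_eq_sum_range_succ
      (fun i j => poissonWeight s i * poissonWeight e j * Φ k) k, ← Finset.sum_coe_sort]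
  refine Finset.sum_congr rfl fun p _ => ?_
  simp only [Function.comp, Finset.HasAntidiagonal.sigmaAntidiagonalEquivProd_apply]
  rw [Finset.HasAntidiagonal.mem_antidiagonal.1 p.2]

theorem childAvg_add_le (hD : 0 ≤ D) (h0 : -1 / 2 ≤ lam) (h1 : lam ≤ 1) (he : 0 ≤ e)
    (hB : NodeBound D lam n e B) (hB0 : ∀ η i, 0 ≤ B η i) :
    ∀ (i : ℕ) {f : (Fin 3 → ℝ) → ℝ}, Posi f →
      ∑' j, poissonWeight e j * childAvg D lam n (i + j) f ≤
        childAvg D lam n i (slice f B) := by
  intro i
  induction i with
  | zero =>
    intro f hf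
    simp only [Nat.zero_add]
    refine (hB f hf).trans (le_of_eq ?_)
    simp only [childAvg, piAvg, Finset.univ_eq_empty, Finset.prod_empty, one_mul,
      fval_prodL_zero, tsum_fintype, Finset.sum_const, Finset.card_univ,
      Fintype.card_unique, one_smul]
    simp [fval, slice, blind]
  | succ i ih =>
    intro f hf
    have hw := gwWeight_nonneg hD n
    have hws := hasSum_gw hD n
    have sC : ∀ t, IsStoch (edge lam (lik lam n t)) := fun t => (isStoch_lik h0 h1 n t).edge h0 h1
    have hft : ∀ t, Posi (slice f (edge lam (lik lam n t))) := fun t => hf.comp_mul (sC t).1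
    have hfB : Posi (slice f B) := hf.comp_mul hB0
    have hswap : ∀ t j, |childAvg D lam n (i + j) (slice f (edge lam (lik lam n t)))| ≤ fbound f :=
      fun t j => abs_piAvg_le hw hws fun g => by
        rw [fval_slice]
        exact abs_fval_le hf.toSublin ((isStoch_prodL fun c => sC (g c)).tens (sC t))
    calc ∑' j, poissonWeight e j * childAvg D lam n (i + 1 + j) f
        = ∑' j, poissonWeight e j * ∑' t, gwWeight D n t *
            childAvg D lam n (i + j) (slice f (edge lam (lik lam n t))) := by
          refine tsum_congr fun j => ?_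
          rw [show i + 1 + j = i + j + 1 by omega, childAvg_succ hD h0 h1 hf.toSublin]
      _ = ∑' t, gwWeight D n t * ∑' j, poissonWeight e j *
            childAvg D lam n (i + j) (slice f (edge lam (lik lam n t))) :=
          ((tsum_pair_eq hw hws.summable (poissonWeight_nonneg he) (hasSum_poisson e).summable
            _ hswap).2).symm
      _ ≤ ∑' t, gwWeight D n t *
            childAvg D lam n i (slice (slice f B) (edge lam (lik lam n t))) := by
          refine Summable.tsum_le_tsum (fun t => mul_le_mul_of_nonneg_left ?_ (hw t))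
            (summable_weighted hw hws.summable fun t => abs_tsum_weighted_le
              (poissonWeight_nonneg he) (hasSum_poisson e) fun j => hswap t j)
            (summable_weighted hw hws.summable (B := fbound (slice f B)) fun t =>
              abs_piAvg_le hw hws fun g => by
                rw [fval_slice]
                exact abs_fval_le hfB.toSublin ((isStoch_prodL fun c => sC (g c)).tens (sC t)))
          rw [slice_comm]
          exact ih (hft t)
      _ = childAvg D lam n (i + 1) (slice f B) := (childAvg_succ hD h0 h1 hfB.toSublin i).symm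

/-- Two groups of children. -/
theorem NodeBound.add (hD : 0 ≤ D) (h0 : -1 / 2 ≤ lam) (h1 : lam ≤ 1) (hs : 0 ≤ s) (he : 0 ≤ e)
    (hA : NodeBound D lam n s A) (hB : NodeBound D lam n e B) (hB0 : ∀ η i, 0 ≤ B η i)
    (h : DomP (tens A B) M) : NodeBound D lam n (s + e) M := fun f hf => by
  have hfB : Posi (slice f B) := hf.comp_mul hB0
  rw [tsum_poisson_add hs he fun k => abs_childAvg_le hD h0 h1 hf.toSublin k]
  refine (Summable.tsum_le_tsum (fun i => mul_le_mul_of_nonneg_left
    (childAvg_add_le hD h0 h1 he hB hB0 i hf) (poissonWeight_nonneg hs i))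
    (summable_weighted (poissonWeight_nonneg hs) (hasSum_poisson s).summable fun i =>
      abs_tsum_weighted_le (poissonWeight_nonneg he) (hasSum_poisson e) fun j =>
        abs_childAvg_le hD h0 h1 hf.toSublin (i + j))
    (summable_weighted (poissonWeight_nonneg hs) (hasSum_poisson s).summable fun i =>
      abs_childAvg_le hD h0 h1 hfB.toSublin i)).trans ?_
  refine (hA _ hfB).trans ?_
  rw [fval_slice]
  exact h f hf

section Finite
variable {Ω : Type} [Fintype Ω] {C : Ω → Fin 3 → ℝ} {a b : ℕ}

/-- Two groups of identical children on a regular tree. -/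
theorem domP_pow_add (hC : ∀ η i, 0 ≤ C η i) (hB0 : ∀ η i, 0 ≤ B η i)
    (hA : DomP (prodL fun _ : Fin a => C) A) (hB : DomP (prodL fun _ : Fin b => C) B)
    (h : DomP (tens A B) M) : DomP (prodL fun _ : Fin (a + b) => C) M := by
  intro f hf
  have key : ∀ (i : ℕ) {f : (Fin 3 → ℝ) → ℝ}, Posi f →
      fval f (prodL fun _ : Fin (i + b) => C) ≤ fval (slice f B) (prodL fun _ : Fin i => C) := by
    intro i
    induction i with
    | zero =>
      intro f hf
      rw [fval_prodL_zero, Nat.zero_add]
      exact (hB f hf).trans (le_of_eq (by simp [fval, slice, blind]))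
    | succ i ih =>
      intro f hf
      rw [show i + 1 + b = i + b + 1 by omega, fval_prodL_succ, fval_prodL_succ,
        fval_tens_comm, fval_tens_comm (slice f B), fval_tens, fval_tens (slice f B)]
      show fval (slice f C) _ ≤ fval (slice (slice f B) C) _
      rw [slice_comm]
      exact ih (hf.comp_mul hC)
  exact (key a hf).trans ((hA _ (hf.comp_mul hB0)).trans ((le_of_eq (fval_slice f A B)).trans (h f hf)))

/-- A single child. -/
theorem domP_pow_one (hA : DomP C A) : DomP (prodL fun _ : Fin 1 => C) A := fun f hf => by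
  refine le_trans (le_of_eq ?_) (hA f hf)
  exact fval_congr (Equiv.funUnique (Fin 1) Ω) fun η => funext fun i => by simp [prodL]

/-- A node of a regular tree. -/
theorem domP_regTree_node {lam : ℝ} {L : α → Fin 3 → ℝ} (h0 : -1 / 2 ≤ lam) (h1 : lam ≤ 1)
    (hL : DomP (lik lam n (regTree b n)) L)
    (h : DomP (prodL fun _ : Fin b => edge lam L) M) (hL0 : ∀ η i, 0 ≤ L η i) :
    DomP (lik lam (n + 1) (regTree b (n + 1))) M := by
  intro f hf
  rw [show fval f (lik lam (n + 1) (regTree b (n + 1))) =
    fval f (prodL fun _ : Fin b => edge lam (lik lam n (regTree b n))) from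
      fval_node f fun _ : Fin b => regTree b n]
  refine le_trans ?_ (h f hf)
  have hE0 : ∀ η i, 0 ≤ edge lam L η i := fun η => push_nonneg h0 h1 (hL0 η)
  have key : ∀ (k : ℕ) {f : (Fin 3 → ℝ) → ℝ}, Posi f →
      fval f (prodL fun _ : Fin k => edge lam (lik lam n (regTree b n))) ≤
        fval f (prodL fun _ : Fin k => edge lam L) := by
    intro k
    induction k with
    | zero => intro f _; rw [fval_prodL_zero, fval_prodL_zero]
    | succ k ih =>
      intro f hf
      rw [fval_prodL_succ, fval_prodL_succ]
      refine ((hL.edge h0 h1).tens_left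
        (isStoch_prodL fun _ => (isStoch_lik h0 h1 n _).edge h0 h1).1 f hf).trans ?_
      rw [fval_tens_comm, fval_tens_comm f (edge lam L), fval_tens, fval_tens]
      exact ih (hf.comp_mul hE0)
  exact key b hf

end Finite

end Vale.Agent.P154.Q3.DE
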