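import Vale.Agent.P154.DE.Step

/-!
# Packed tables

A row of a table is one natural number holding, for each of the six products (or the single
vector), three targets of `E` bits: index, permutation, weight. The three targets stay below
`c = G * M` times the vector; what is missing is sent to the vertices, that is, to orbit `0`.
Rows are grouped in lines, so that a square needs one scalar product per line.
-/

namespace Vale.Agent.P154.Q3.DE

open scoped BigOperators
open Equiv

/-- The three fields of a packed vector. -/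
noncomputable def fld (Z X i : ℕ) : ℕ :=
  Nat.mod (Nat.shiftRight X (Nat.mul Z i)) (Nat.pow 2 Z)

/-- A packed permuted grid vector. -/
noncomputable def look (P₆ V j k : ℕ) : ℕ :=
  Nat.mod (Nat.shiftRight P₆ (Nat.mul V (Nat.add (Nat.mul 6 j) k))) (Nat.pow 2 V)

/-- The packed copy `P₆` lists the six permutations of every grid vector, `Z` bits a field. -/
noncomputable def lookOK (Z K P P₆ : ℕ) : Bool :=
  allK (fun j => allK (fun k => Nat.beq (look P₆ (3 * Z) j k)
    ((tperm k (gv P j)).1 + (tperm k (gv P j)).2.1 * 2 ^ Z + (tperm k (gv P j)).2.2 * 2 ^ (2 * Z)))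
    (List.range 6)) (List.range K)

/-- The target index of a packed target. -/
noncomputable def tj (x : ℕ) : ℕ := Nat.mod x 4096

/-- The permutation of a packed target. -/
noncomputable def tk (x : ℕ) : ℕ := Nat.mod (Nat.shiftRight x 12) 16

/-- The weight of a packed target. -/
noncomputable def tw (E x : ℕ) : ℕ := Nat.shiftRight (Nat.mod x (Nat.pow 2 E)) 16

/-- One packed block against the vector it must not exceed. -/
noncomputable def blockLE (Z E K P₆ : ℕ) (x a b c : ℕ) : Bool :=
  (fun x₁ => (fun x₂ =>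
    (fun X => Nat.ble (fld Z X 0) a && (Nat.ble (fld Z X 1) b && Nat.ble (Nat.shiftRight X (2 * Z)) c))
      (Nat.add (Nat.mul (tw E x) (look P₆ (3 * Z) (tj x) (tk x)))
        (Nat.add (Nat.mul (tw E x₁) (look P₆ (3 * Z) (tj x₁) (tk x₁)))
          (Nat.mul (tw E x₂) (look P₆ (3 * Z) (tj x₂) (tk x₂))))) &&
      ((Nat.blt (tj x) K && (Nat.blt (tj x₁) K && Nat.blt (tj x₂) K)) &&
        (Nat.blt (tk x) 6 && (Nat.blt (tk x₁) 6 && Nat.blt (tk x₂) 6))))
    (Nat.shiftRight (Nat.shiftRight x E) E)) (Nat.shiftRight x E)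

/-- The weight of one block. -/
noncomputable def blockW (E x : ℕ) : ℕ :=
  Nat.add (tw E x) (Nat.add (tw E (Nat.shiftRight x E))
    (tw E (Nat.shiftRight (Nat.shiftRight x E) E)))

/-- One packed block's part of the code. -/
noncomputable def blockCode (W E x : ℕ) : ℕ :=
  (fun x₁ => (fun x₂ =>
    Nat.add (Nat.shiftLeft (tw E x) (Nat.mul W (Nat.add (tj x) 1)))
      (Nat.add (Nat.shiftLeft (tw E x₁) (Nat.mul W (Nat.add (tj x₁) 1)))
        (Nat.shiftLeft (tw E x₂) (Nat.mul W (Nat.add (tj x₂) 1)))))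
    (Nat.shiftRight (Nat.shiftRight x E) E)) (Nat.shiftRight x E)

/-- The block of a row. -/
noncomputable def blk (E x i : ℕ) : ℕ := Nat.shiftRight x (Nat.mul (Nat.mul E 3) i)

/-- The total weight of a row of products. -/
noncomputable def pairW (E x : ℕ) : ℕ :=
  Nat.add (blockW E (blk E x 0)) (Nat.add (blockW E (blk E x 1))
    (Nat.add (blockW E (blk E x 2)) (Nat.add (blockW E (blk E x 3))
      (Nat.add (blockW E (blk E x 4)) (blockW E (blk E x 5))))))

/-- The weight of a row of products before splitting. -/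
noncomputable def pairTot (M : ℕ) (a b : T) : ℕ :=
  Nat.mul (Nat.mul 2 M) (Nat.mul (Nat.add a.1 (Nat.add a.2.1 a.2.2))
    (Nat.add b.1 (Nat.add b.2.1 b.2.2)))

/-- One row of products. -/
noncomputable def rowOK (c Z E K B P₆ M : ℕ) (a b : T) (t x : ℕ) : Bool :=
  (fun a₁ a₂ a₃ b₁ b₂ b₃ =>
    blockLE Z E K P₆ (blk E x 0) (Nat.mul a₁ b₁) (Nat.mul a₂ b₂) (Nat.mul a₃ b₃) &&
    (blockLE Z E K P₆ (blk E x 1) (Nat.mul a₁ b₂) (Nat.mul a₂ b₃) (Nat.mul a₃ b₁) &&
    (blockLE Z E K P₆ (blk E x 2) (Nat.mul a₁ b₃) (Nat.mul a₂ b₁) (Nat.mul a₃ b₂) &&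
    (blockLE Z E K P₆ (blk E x 3) (Nat.mul a₁ b₁) (Nat.mul a₂ b₃) (Nat.mul a₃ b₂) &&
    (blockLE Z E K P₆ (blk E x 4) (Nat.mul a₁ b₃) (Nat.mul a₂ b₂) (Nat.mul a₃ b₁) &&
    (blockLE Z E K P₆ (blk E x 5) (Nat.mul a₁ b₂) (Nat.mul a₂ b₁) (Nat.mul a₃ b₃) &&
    (Nat.ble (pairTot M a b) B && (Nat.ble (pairW E x) B && Nat.ble t B))))))))
    (Nat.mul c a.1) (Nat.mul c a.2.1) (Nat.mul c a.2.2) b.1 b.2.1 b.2.2

/-- The code of a row of products, the remainder in the slot of orbit `0`. -/
noncomputable def rowCode (W E M : ℕ) (a b : T) (t x : ℕ) : ℕ :=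
  Nat.add t (Nat.add (blockCode W E (blk E x 0)) (Nat.add (blockCode W E (blk E x 1))
    (Nat.add (blockCode W E (blk E x 2)) (Nat.add (blockCode W E (blk E x 3))
      (Nat.add (blockCode W E (blk E x 4)) (Nat.add (blockCode W E (blk E x 5))
        (Nat.shiftLeft (Nat.sub (pairTot M a b) (pairW E x)) W)))))))

/-- The table row as a list. -/
noncomputable def rowItem (E M : ℕ) (a b : T) (t x : ℕ) : Item :=
  (t, decBlocks E 3 6 x ++ [[(0, 0, pairTot M a b - pairW E x)]])

/-- All rows of a line. -/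
noncomputable def lineOK (f : T → ℕ → ℕ → Bool) (ys : List T) : List ℕ → ℕ → Bool :=
  List.rec (motive := fun _ => List ℕ → ℕ → Bool)
    (fun l _ => List.rec (motive := fun _ => Bool) true (fun _ _ _ => false) l)
    (fun y _ ih l t => List.rec (motive := fun _ => Bool) false
      (fun x u _ => f y t x && ih u (Nat.add t 1)) l) ys

/-- The codes of a line. -/
noncomputable def lineMap {α : Type} (f : T → ℕ → ℕ → α) (ys : List T) : List ℕ → ℕ → List α :=
  List.rec (motive := fun _ => List ℕ → ℕ → List α) (fun _ _ => [])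
    (fun y _ ih l t => List.rec (motive := fun _ => List α) []
      (fun x u _ => f y t x :: ih u (Nat.add t 1)) l) ys

/-- Lines over the pairs `a ≤ b`. -/
noncomputable def upOK (f : T → T → ℕ → ℕ → Bool) (xs : List T) : List (List ℕ) → ℕ → Bool :=
  List.rec (motive := fun _ => List (List ℕ) → ℕ → Bool)
    (fun r _ => List.rec (motive := fun _ => Bool) true (fun _ _ _ => false) r)
    (fun x t ih r s => List.rec (motive := fun _ => Bool) false
      (fun l u _ => lineOK (f x) (x :: t) l s && ih u (Nat.add s 256)) r) xs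

/-- The codes over the pairs `a ≤ b`. -/
noncomputable def upMap {α : Type} (f : T → T → ℕ → ℕ → α) (xs : List T) :
    List (List ℕ) → ℕ → List (List α) :=
  List.rec (motive := fun _ => List (List ℕ) → ℕ → List (List α)) (fun _ _ => [])
    (fun x t ih r s => List.rec (motive := fun _ => List (List α)) []
      (fun l u _ => lineMap (f x) (x :: t) l s :: ih u (Nat.add s 256)) r) xs

/-- Lines over all pairs. -/
noncomputable def allOK (f : T → T → ℕ → ℕ → Bool) (ys : List T) (xs : List T) :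
    List (List ℕ) → ℕ → Bool :=
  List.rec (motive := fun _ => List (List ℕ) → ℕ → Bool)
    (fun r _ => List.rec (motive := fun _ => Bool) true (fun _ _ _ => false) r)
    (fun x _ ih r s => List.rec (motive := fun _ => Bool) false
      (fun l u _ => lineOK (f x) ys l s && ih u (Nat.add s 256)) r) xs

/-- The codes over all pairs. -/
noncomputable def allMap {α : Type} (f : T → T → ℕ → ℕ → α) (ys : List T) (xs : List T) :
    List (List ℕ) → ℕ → List (List α) :=
  List.rec (motive := fun _ => List (List ℕ) → ℕ → List (List α)) (fun _ _ => [])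
    (fun x _ ih r s => List.rec (motive := fun _ => List (List α)) []
      (fun l u _ => lineMap (f x) ys l s :: ih u (Nat.add s 256)) r) xs

/-- A table of the squares of a list of vectors. -/
noncomputable def sqTableOK (Z E G K B P P₆ M : ℕ) (xs : List T) (r : List (List ℕ)) : Bool :=
  lookOK Z K P P₆ && (Nat.blt (Nat.mul B G) (Nat.pow 2 Z) &&
    upOK (rowOK (Nat.mul G M) Z E K B P₆ M) xs r 1)

/-- A table of the products of two lists of vectors. -/
noncomputable def prodTableOK (Z E G K B P P₆ M : ℕ) (xs ys : List T) (r : List (List ℕ)) : Bool :=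
  lookOK Z K P P₆ && (Nat.blt (Nat.mul B G) (Nat.pow 2 Z) &&
    allOK (rowOK (Nat.mul G M) Z E K B P₆ M) ys xs r 1)

/-- The packed rows of a table of squares. -/
noncomputable def sqCodes (W E M : ℕ) (xs : List T) (r : List (List ℕ)) : List (List ℕ) :=
  upMap (rowCode W E M) xs r 1

/-- The packed rows of a table of products. -/
noncomputable def prodCodes (W E M : ℕ) (xs ys : List T) (r : List (List ℕ)) : List (List ℕ) :=
  allMap (rowCode W E M) ys xs r 1

/-- The packed value of a square: one scalar product per line. -/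
noncomputable def triSq (m : List ℕ) : List (List ℕ) → ℕ :=
  List.rec (motive := fun _ => List (List ℕ) → ℕ) (fun _ => 0)
    (fun x t ih rs => List.rec (motive := fun _ => ℕ) 0
      (fun r rs' _ => List.rec (motive := fun _ => ℕ) 0
        (fun r₀ r₁ _ => Nat.add (Nat.mul x (Nat.add (Nat.mul x r₀) (Nat.mul 2 (dot t r₁))))
          (ih rs')) r) rs) m

/-- The packed value of the product of two channels on one list of vectors. -/
noncomputable def triMul (m : List ℕ) : List ℕ → List (List ℕ) → ℕ :=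
  List.rec (motive := fun _ => List ℕ → List (List ℕ) → ℕ) (fun _ _ => 0)
    (fun x t ih ys rs => List.rec (motive := fun _ => ℕ) 0
      (fun y u _ => List.rec (motive := fun _ => ℕ) 0
        (fun r rs' _ => List.rec (motive := fun _ => ℕ) 0
          (fun r₀ r₁ _ => Nat.add (Nat.add (Nat.mul x (Nat.add (Nat.mul y r₀) (dot u r₁)))
            (Nat.mul y (dot t r₁))) (ih u rs')) r) rs) ys) m

/-- The slot test of such a product. -/
noncomputable def checkMul (W K B U C : ℕ) (m n : List ℕ) (rows : List (List ℕ)) (ps : List ℕ) :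
    Bool :=
  Nat.blt (sumK m * sumK n * B) (2 ^ W) &&
    coverOK (fun j => U * slot W (triMul m n rows) j) C K ps

/-- One row of a single vector. -/
noncomputable def oneOK (c Z E K B P₆ M : ℕ) (a : T) (t x : ℕ) : Bool :=
  blockLE Z E K P₆ x (Nat.mul c a.1) (Nat.mul c a.2.1) (Nat.mul c a.2.2) &&
    (Nat.ble (Nat.mul M (Nat.add a.1 (Nat.add a.2.1 a.2.2))) B && (Nat.ble (blockW E x) B &&
      Nat.ble t B))

/-- The code of a row of a single vector, the remainder in the slot of orbit `0`. -/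
noncomputable def oneCode (W E M : ℕ) (a : T) (t x : ℕ) : ℕ :=
  Nat.add t (Nat.add (blockCode W E x)
    (Nat.shiftLeft (Nat.sub (Nat.mul M (Nat.add a.1 (Nat.add a.2.1 a.2.2))) (blockW E x)) W))

/-- A table of single vectors. -/
noncomputable def oneTableOK (Z E G K B P P₆ M : ℕ) (xs : List T) (l : List ℕ) : Bool :=
  lookOK Z K P P₆ && (Nat.blt (Nat.mul B G) (Nat.pow 2 Z) &&
    lineOK (oneOK (Nat.mul G M) Z E K B P₆ M) xs l 1)

/-- The packed rows of a table of single vectors. -/
noncomputable def oneCodes (W E M : ℕ) (xs : List T) (l : List ℕ) : List ℕ :=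
  lineMap (oneCode W E M) xs l 1

/-- The packed value of a product. -/
noncomputable def dotAll (m n : List ℕ) : List (List ℕ) → ℕ :=
  List.rec (motive := fun _ => List (List ℕ) → ℕ) (fun _ => 0)
    (fun x _ ih rs => List.rec (motive := fun _ => ℕ) 0
      (fun r rs' _ => Nat.add (Nat.mul x (dot n r)) (ih rs')) rs) m

/-- The slot test of a square. -/
noncomputable def checkSq (W K B U C : ℕ) (m : List ℕ) (rows : List (List ℕ)) (ps : List ℕ) :
    Bool :=
  Nat.blt (sumK m * sumK m * B) (2 ^ W) && coverOK (fun j => U * slot W (triSq m rows) j) C K ps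

/-- The slot test of a product. -/
noncomputable def checkProd (W K B U C : ℕ) (m n : List ℕ) (rows : List (List ℕ)) (ps : List ℕ) :
    Bool :=
  Nat.blt (sumK m * sumK n * B) (2 ^ W) &&
    coverOK (fun j => U * slot W (dotAll m n rows) j) C K ps

/-! ### Soundness -/

variable {c Z E G K B P P₆ W M : ℕ}

theorem blockLE_spec (htop : topOK G K P = true) (hP : lookOK Z K P P₆ = true)
    {x a b d : ℕ} (h : blockLE Z E K P₆ x a b d = true) (hW : blockW E x ≤ B)
    (hB : B * G < 2 ^ Z) :
    ((comb P (decEntries E 3 x)).1 ≤ a ∧ (comb P (decEntries E 3 x)).2.1 ≤ b ∧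
      (comb P (decEntries E 3 x)).2.2 ≤ d) ∧
      allK (fun e => Nat.blt e.1 K) (decEntries E 3 x) = true ∧
      wsum (decEntries E 3 x) = blockW E x := by
  set x₁ := x >>> E with hx₁
  set x₂ := x₁ >>> E with hx₂
  have he : decEntries E 3 x = [(tj x, tk x, tw E x), (tj x₁, tk x₁, tw E x₁),
      (tj x₂, tk x₂, tw E x₂)] := rfl
  simp only [blockLE, Bool.and_eq_true] at h
  obtain ⟨⟨ha, hb, hd⟩, ⟨j0, j1, j2⟩, k0, k1, k2⟩ := h
  simp only [Nat.blt_eq] at j0 j1 j2 k0 k1 k2
  refine ⟨?_, ?_, by rw [he]; rfl⟩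
  swap
  · rw [he]
    show (Nat.blt (tj x) K && (Nat.blt (tj x₁) K && (Nat.blt (tj x₂) K && true))) = true
    simp only [Bool.and_eq_true, Nat.blt_eq]
    exact ⟨j0, j1, j2, trivial⟩
  have hl : ∀ j k, j < K → k < 6 → look P₆ (3 * Z) j k = (tperm k (gv P j)).1 +
      (tperm k (gv P j)).2.1 * 2 ^ Z + (tperm k (gv P j)).2.2 * 2 ^ (2 * Z) := by
    intro j k hj hk
    simp only [lookOK, allK_eq, List.all_eq_true, List.mem_range] at hP
    exact Nat.eq_of_beq_eq_true (hP j hj k hk)
  obtain ⟨-, -, -, hall⟩ := topOK_spec htop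
  have hc : ∀ j k, j < K → k < 6 → (tperm k (gv P j)).1 ≤ G ∧ (tperm k (gv P j)).2.1 ≤ G := by
    intro j k hj hk
    have := hall j hj
    revert this
    generalize gv P j = v
    intro this
    interval_cases k <;> constructor
    · exact (show v.1 ≤ G by omega)
    · exact (show v.2.1 ≤ G by omega)
    · exact (show v.2.1 ≤ G by omega)
    · exact (show v.2.2 ≤ G by omega)
    · exact (show v.2.2 ≤ G by omega)
    · exact (show v.1 ≤ G by omega)
    · exact (show v.1 ≤ G by omega)
    · exact (show v.2.2 ≤ G by omega)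
    · exact (show v.2.2 ≤ G by omega)
    · exact (show v.2.1 ≤ G by omega)
    · exact (show v.2.1 ≤ G by omega)
    · exact (show v.1 ≤ G by omega)
  rw [he, comb_cons, comb_cons, comb_cons, comb_nil]
  set u₀ := tperm (tk x) (gv P (tj x))
  set u₁ := tperm (tk x₁) (gv P (tj x₁))
  set u₂ := tperm (tk x₂) (gv P (tj x₂))
  set A := tw E x * u₀.1 + (tw E x₁ * u₁.1 + tw E x₂ * u₂.1)
  set A' := tw E x * u₀.2.1 + (tw E x₁ * u₁.2.1 + tw E x₂ * u₂.2.1)
  set A'' := tw E x * u₀.2.2 + (tw E x₁ * u₁.2.2 + tw E x₂ * u₂.2.2)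
  have hX : tw E x * look P₆ (3 * Z) (tj x) (tk x) + (tw E x₁ * look P₆ (3 * Z) (tj x₁) (tk x₁) +
      tw E x₂ * look P₆ (3 * Z) (tj x₂) (tk x₂)) = A + 2 ^ Z * (A' + 2 ^ Z * A'') := by
    rw [hl (tj x) (tk x) j0 k0, hl (tj x₁) (tk x₁) j1 k1, hl (tj x₂) (tk x₂) j2 k2, two_mul, pow_add]
    simp only [A, A', A'']; ring
  have hw : tw E x + (tw E x₁ + tw E x₂) ≤ B := hW
  have hA : A < 2 ^ Z ∧ A' < 2 ^ Z := by
    obtain ⟨p0, q0⟩ := hc _ _ j0 k0
    obtain ⟨p1, q1⟩ := hc _ _ j1 k1
    obtain ⟨p2, q2⟩ := hc _ _ j2 k2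
    refine ⟨lt_of_le_of_lt ?_ hB, lt_of_le_of_lt ?_ hB⟩
    · calc A ≤ tw E x * G + (tw E x₁ * G + tw E x₂ * G) := by
            exact Nat.add_le_add (Nat.mul_le_mul_left _ p0)
              (Nat.add_le_add (Nat.mul_le_mul_left _ p1) (Nat.mul_le_mul_left _ p2))
        _ ≤ B * G := by rw [← add_mul, ← add_mul]; exact Nat.mul_le_mul_right _ hw
    · calc A' ≤ tw E x * G + (tw E x₁ * G + tw E x₂ * G) := by
            exact Nat.add_le_add (Nat.mul_le_mul_left _ q0)
              (Nat.add_le_add (Nat.mul_le_mul_left _ q1) (Nat.mul_le_mul_left _ q2))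
        _ ≤ B * G := by rw [← add_mul, ← add_mul]; exact Nat.mul_le_mul_right _ hw
  set X := tw E x * look P₆ (3 * Z) (tj x) (tk x) + (tw E x₁ * look P₆ (3 * Z) (tj x₁) (tk x₁) +
      tw E x₂ * look P₆ (3 * Z) (tj x₂) (tk x₂))
  have ha' : (X >>> (Z * 0)) % 2 ^ Z ≤ a := Nat.le_of_ble_eq_true ha
  have hb' : (X >>> (Z * 1)) % 2 ^ Z ≤ b := Nat.le_of_ble_eq_true hb
  have hd' : X >>> (2 * Z) ≤ d := Nat.le_of_ble_eq_true hd
  simp only [Nat.shiftRight_eq_div_pow, Nat.mul_zero, Nat.mul_one, pow_zero, Nat.div_one]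
    at ha' hb' hd'
  rw [hX] at ha' hb' hd'
  have hpos : 0 < 2 ^ Z := Nat.two_pow_pos Z
  have e1 : (A + 2 ^ Z * (A' + 2 ^ Z * A'')) / 2 ^ Z = A' + 2 ^ Z * A'' := by
    rw [Nat.add_mul_div_left _ _ hpos, Nat.div_eq_of_lt hA.1, Nat.zero_add]
  rw [Nat.add_mul_mod_self_left, Nat.mod_eq_of_lt hA.1] at ha'
  rw [e1, Nat.add_mul_mod_self_left, Nat.mod_eq_of_lt hA.2] at hb'
  rw [two_mul, pow_add, ← Nat.div_div_eq_div_mul, e1, Nat.add_mul_div_left _ _ hpos,
    Nat.div_eq_of_lt hA.2, Nat.zero_add] at hd'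
  simp only [Nat.add_zero]
  exact ⟨ha', hb', hd'⟩

theorem decBlocks_six (E x : ℕ) : decBlocks E 3 6 x =
    [decEntries E 3 (blk E x 0), decEntries E 3 (blk E x 1), decEntries E 3 (blk E x 2),
      decEntries E 3 (blk E x 3), decEntries E 3 (blk E x 4), decEntries E 3 (blk E x 5)] := by
  have e : ∀ i, Nat.shiftRight x (Nat.mul (Nat.mul E 3) i) = x >>> (E * 3 * i) := fun _ => rfl
  simp only [blk, e]
  show [_, decEntries E 3 (x >>> (E * 3)), decEntries E 3 (x >>> (E * 3) >>> (E * 3)),
    decEntries E 3 (x >>> (E * 3) >>> (E * 3) >>> (E * 3)),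
    decEntries E 3 (x >>> (E * 3) >>> (E * 3) >>> (E * 3) >>> (E * 3)),
    decEntries E 3 (x >>> (E * 3) >>> (E * 3) >>> (E * 3) >>> (E * 3) >>> (E * 3))] = _
  simp only [← Nat.shiftRight_add, Nat.mul_zero, Nat.shiftRight_zero, Nat.mul_succ, Nat.zero_add]

theorem wsum_append : ∀ a b : List Entry, wsum (a ++ b) = wsum a + wsum b
  | [], b => (Nat.zero_add _).symm
  | e :: a, b => by
    show e.2.2 + wsum (a ++ b) = e.2.2 + wsum a + wsum b
    rw [wsum_append a b, Nat.add_assoc]

theorem tot_comb (htop : topOK G K P = true) : ∀ es : List Entry,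
    (es.all fun e => decide (e.1 < K)) = true →
    (comb P es).1 + (comb P es).2.1 + (comb P es).2.2 = G * wsum es
  | [], _ => by rw [comb_nil]; show 0 + 0 + 0 = G * 0; simp
  | (j, k, w) :: es, h => by
    simp only [List.all_cons, Bool.and_eq_true, decide_eq_true_eq] at h
    obtain ⟨-, -, -, hall⟩ := topOK_spec htop
    obtain ⟨τ, hτ⟩ := tperm_spec k
    have hp : (tperm k (gv P j)).1 + (tperm k (gv P j)).2.1 + (tperm k (gv P j)).2.2 = G := by
      have e := Equiv.sum_comp τ (R (gv P j))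
      simp only [Fin.sum_univ_three] at e
      have e' : R (tperm k (gv P j)) 0 + R (tperm k (gv P j)) 1 + R (tperm k (gv P j)) 2 =
          R (gv P j) 0 + R (gv P j) 1 + R (gv P j) 2 := by rw [hτ]; exact e
      rw [← hall j h.1]
      have e'' : (((tperm k (gv P j)).1 + (tperm k (gv P j)).2.1 + (tperm k (gv P j)).2.2 : ℕ) : ℝ) =
          (((gv P j).1 + (gv P j).2.1 + (gv P j).2.2 : ℕ) : ℝ) := by push_cast; exact e'
      exact_mod_cast e''
    rw [comb_cons, show wsum ((j, k, w) :: es) = w + wsum es from rfl, Nat.mul_add,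
      ← tot_comb htop es h.2, ← hp]
    ring

/-- A split with a remainder on the vertices. -/
theorem split_le (htop : topOK G K P = true) {f} (hf : Posi f) {v : T} {es : List Entry}
    (hes : (es.all fun e => decide (e.1 < K)) = true)
    (h : (comb P es).1 ≤ G * M * v.1 ∧ (comb P es).2.1 ≤ G * M * v.2.1 ∧
      (comb P es).2.2 ≤ G * M * v.2.2) :
    wsum es ≤ M * (v.1 + v.2.1 + v.2.2) ∧
    ((G * M : ℕ) : ℝ) * sym f (R v) ≤
      (∑ j ∈ Finset.range K, (wt j es : ℝ) * sym f (R (gv P j))) +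
        ((M * (v.1 + v.2.1 + v.2.2) - wsum es : ℕ) : ℝ) * sym f (R (gv P 0)) := by
  obtain ⟨hG, -, hg0, -⟩ := topOK_spec htop
  have ht := tot_comb htop es hes
  have hle : wsum es ≤ M * (v.1 + v.2.1 + v.2.2) := by
    refine Nat.le_of_mul_le_mul_left ?_ hG
    rw [← ht, ← Nat.mul_assoc]
    calc _ ≤ G * M * v.1 + G * M * v.2.1 + G * M * v.2.2 := by omega
      _ = _ := by ring
  refine ⟨hle, ?_⟩
  set w := comb P es
  have hGR : (0 : ℝ) < G := Nat.cast_pos.2 hG
  set r₁ : ℝ := ((G * M * v.1 - w.1 : ℕ) : ℝ) / G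
  set r₂ : ℝ := ((G * M * v.2.1 - w.2.1 : ℕ) : ℝ) / G
  set r₃ : ℝ := ((G * M * v.2.2 - w.2.2 : ℕ) : ℝ) / G
  set u : T := gv P 0
  have hu : u = (G, 0, 0) := hg0
  have hr : 0 ≤ r₁ ∧ 0 ≤ r₂ ∧ 0 ≤ r₃ := ⟨by positivity, by positivity, by positivity⟩
  have e : ((G * M : ℕ) : ℝ) • R v =
      R w + (r₁ • R u + (r₂ • R (tperm 2 u) + r₃ • R (tperm 1 u))) := by
    funext i
    simp only [r₁, r₂, r₃, Nat.cast_sub h.1, Nat.cast_sub h.2.1, Nat.cast_sub h.2.2]
    fin_cases i <;> simp [R, hu, tperm, show Nat.beq 2 1 = false from rfl,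
      show Nat.beq 1 1 = true from rfl, show Nat.beq 2 2 = true from rfl] <;> field_simp <;> ring
  have hn : ∀ (r : ℝ) (z : T), 0 ≤ r → ∀ i, 0 ≤ (r • R z) i := fun r z hz i =>
    mul_nonneg hz (R_nonneg z i)
  have key : ∀ σ : Perm (Fin 3), ((G * M : ℕ) : ℝ) * f (R v ∘ σ) ≤
      eval P (fun z => f (z ∘ σ)) es + (r₁ * f (R u ∘ σ) +
        (r₂ * f (R (tperm 2 u) ∘ σ) + r₃ * f (R (tperm 1 u) ∘ σ))) := by
    intro σ
    have hg := hf.comp_perm σ
    have h1 := hg.smul ((G * M : ℕ) : ℝ) (R v) (Nat.cast_nonneg _) (R_nonneg v)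
    rw [e] at h1
    rw [← h1]
    refine (hg.add _ _ (R_nonneg _) fun i => add_nonneg (hn _ _ hr.1 i)
      (add_nonneg (hn _ _ hr.2.1 i) (hn _ _ hr.2.2 i))).trans (add_le_add (posi_comb hg P es) ?_)
    refine (hg.add _ _ (hn _ _ hr.1) fun i => add_nonneg (hn _ _ hr.2.1 i) (hn _ _ hr.2.2 i)).trans
      (add_le_add (hg.smul _ _ hr.1 (R_nonneg _)).le ?_)
    exact (hg.add _ _ (hn _ _ hr.2.1) (hn _ _ hr.2.2)).trans
      (add_le_add (hg.smul _ _ hr.2.1 (R_nonneg _)).le (hg.smul _ _ hr.2.2 (R_nonneg _)).le)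
  obtain ⟨τ1, hτ1⟩ := tperm_spec 1
  obtain ⟨τ2, hτ2⟩ := tperm_spec 2
  have hsum : r₁ + r₂ + r₃ = ((M * (v.1 + v.2.1 + v.2.2) - wsum es : ℕ) : ℝ) := by
    simp only [r₁, r₂, r₃, Nat.cast_sub h.1, Nat.cast_sub h.2.1, Nat.cast_sub h.2.2,
      Nat.cast_sub hle]
    have hw : ((w.1 : ℕ) : ℝ) + w.2.1 + w.2.2 = G * (wsum es : ℝ) := by exact_mod_cast ht
    push_cast
    field_simp
    linarith
  have hs := Finset.sum_le_sum (s := Finset.univ) fun σ _ => key σ
  rw [Finset.sum_add_distrib, sum_eval P f es hes, Finset.sum_add_distrib, Finset.sum_add_distrib,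
    ← Finset.mul_sum, ← Finset.mul_sum, ← Finset.mul_sum, ← Finset.mul_sum] at hs
  change ((G * M : ℕ) : ℝ) * sym f (R v) ≤ _ + (r₁ * sym f (R u) +
    (r₂ * sym f (R (tperm 2 u)) + r₃ * sym f (R (tperm 1 u)))) at hs
  rw [hτ1, hτ2, sym_comp, sym_comp] at hs
  rw [← hsum]
  linarith

/-- What a checked row gives. -/
theorem row_spec (htop : topOK G K P = true) (hP : lookOK Z K P P₆ = true)
    (hB : B * G < 2 ^ Z) {a b : T} {t x : ℕ} (h : rowOK (G * M) Z E K B P₆ M a b t x = true)
    {f} (hf : Posi f) :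
    itemOK K B (rowItem E M a b t x) = true ∧
      ((G * M : ℕ) : ℝ) * pairVal f (a, b) ≤ ∑ j ∈ Finset.range K,
        (wt j (rowItem E M a b t x).2.flatten : ℝ) * sym f (R (gv P j)) := by
  simp only [rowOK, Bool.and_eq_true, Nat.ble_eq, Nat.mul_eq] at h
  obtain ⟨h0, h1, h2, h3, h4, h5, htot, hw, ht⟩ := h
  simp only [pairW, Nat.add_eq] at hw
  obtain ⟨l0, a0, w0⟩ := blockLE_spec (B := B) htop hP h0 (by omega) hB
  obtain ⟨l1, a1, w1⟩ := blockLE_spec (B := B) htop hP h1 (by omega) hB
  obtain ⟨l2, a2, w2⟩ := blockLE_spec (B := B) htop hP h2 (by omega) hB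
  obtain ⟨l3, a3, w3⟩ := blockLE_spec (B := B) htop hP h3 (by omega) hB
  obtain ⟨l4, a4, w4⟩ := blockLE_spec (B := B) htop hP h4 (by omega) hB
  obtain ⟨l5, a5, w5⟩ := blockLE_spec (B := B) htop hP h5 (by omega) hB
  have dec : ∀ {es : List Entry}, allK (fun e => Nat.blt e.1 K) es = true →
      (es.all fun e => decide (e.1 < K)) = true := fun {es} he => by
    simpa [allK_eq, List.all_eq_true, Nat.blt_eq] using he
  have conv : ∀ k (z : T), z.1 ≤ G * M * a.1 * (tperm k b).1 →
      z.2.1 ≤ G * M * a.2.1 * (tperm k b).2.1 → z.2.2 ≤ G * M * a.2.2 * (tperm k b).2.2 →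
      z.1 ≤ G * M * (tmul a (tperm k b)).1 ∧ z.2.1 ≤ G * M * (tmul a (tperm k b)).2.1 ∧
        z.2.2 ≤ G * M * (tmul a (tperm k b)).2.2 := fun k z p q r => by
    simp only [tmul, ← Nat.mul_assoc]; exact ⟨p, q, r⟩
  obtain ⟨n0, s0⟩ := split_le htop hf (dec a0) (conv 0 _ l0.1 l0.2.1 l0.2.2)
  obtain ⟨n1, s1⟩ := split_le htop hf (dec a1) (conv 1 _ l1.1 l1.2.1 l1.2.2)
  obtain ⟨n2, s2⟩ := split_le htop hf (dec a2) (conv 2 _ l2.1 l2.2.1 l2.2.2)
  obtain ⟨n3, s3⟩ := split_le htop hf (dec a3) (conv 3 _ l3.1 l3.2.1 l3.2.2)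
  obtain ⟨n4, s4⟩ := split_le htop hf (dec a4) (conv 4 _ l4.1 l4.2.1 l4.2.2)
  obtain ⟨n5, s5⟩ := split_le htop hf (dec a5) (conv 5 _ l5.1 l5.2.1 l5.2.2)
  have htt : pairTot M a b = M * ((tmul a (tperm 0 b)).1 + (tmul a (tperm 0 b)).2.1 + (tmul a (tperm 0 b)).2.2)
      + M * ((tmul a (tperm 1 b)).1 + (tmul a (tperm 1 b)).2.1 + (tmul a (tperm 1 b)).2.2)
      + M * ((tmul a (tperm 2 b)).1 + (tmul a (tperm 2 b)).2.1 + (tmul a (tperm 2 b)).2.2)
      + M * ((tmul a (tperm 3 b)).1 + (tmul a (tperm 3 b)).2.1 + (tmul a (tperm 3 b)).2.2)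
      + M * ((tmul a (tperm 4 b)).1 + (tmul a (tperm 4 b)).2.1 + (tmul a (tperm 4 b)).2.2)
      + M * ((tmul a (tperm 5 b)).1 + (tmul a (tperm 5 b)).2.1 + (tmul a (tperm 5 b)).2.2) := by
    show 2 * M * ((a.1 + (a.2.1 + a.2.2)) * (b.1 + (b.2.1 + b.2.2))) =
      M * (a.1 * b.1 + a.2.1 * b.2.1 + a.2.2 * b.2.2)
      + M * (a.1 * b.2.1 + a.2.1 * b.2.2 + a.2.2 * b.1)
      + M * (a.1 * b.2.2 + a.2.1 * b.1 + a.2.2 * b.2.1)
      + M * (a.1 * b.1 + a.2.1 * b.2.2 + a.2.2 * b.2.1)
      + M * (a.1 * b.2.2 + a.2.1 * b.2.1 + a.2.2 * b.1)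
      + M * (a.1 * b.2.1 + a.2.1 * b.1 + a.2.2 * b.2.2)
    ring
  constructor
  · simp only [allK_eq] at a0 a1 a2 a3 a4 a5
    obtain ⟨-, hK, -, -⟩ := topOK_spec htop
    simp only [itemOK, rowItem, decBlocks_six, catK_eq, allK_eq, List.flatten_cons,
      List.flatten_nil, List.cons_append, List.nil_append, List.append_nil,
      List.all_append, List.all_cons, List.all_nil, wsum_append, w0, w1, w2, w3, w4, w5,
      a0, a1, a2, a3, a4, a5, Bool.and_eq_true, Bool.and_self, Nat.ble_eq, and_true,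
      Nat.blt_eq]
    refine ⟨⟨ht, ?_⟩, trivial, trivial, trivial, trivial, trivial, trivial, hK⟩
    show _ + (_ + (_ + (_ + (_ + (_ + (pairTot M a b - pairW E x + 0)))))) ≤ B
    simp only [pairW, Nat.add_eq]
    rw [w0] at n0; rw [w1] at n1; rw [w2] at n2; rw [w3] at n3; rw [w4] at n4; rw [w5] at n5
    omega
  · obtain ⟨τ, hτ, -⟩ := sum_perm fun _ => (0 : ℝ)
    have hv : pairVal f (a, b) = ∑ k : Fin 6, sym f (R (tmul a (tperm k.val b))) := by
      simp only [pairVal, sym]
      rw [Finset.sum_comm (s := (Finset.univ : Finset (Fin 6)))]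
      refine Finset.sum_congr rfl fun σ _ => ?_
      obtain ⟨τ', hτ', hsum'⟩ := sum_perm fun ρ => f ((R a ∘ σ) * (R b ∘ (ρ * σ)))
      rw [← Equiv.sum_comp (Equiv.mulRight σ) fun ρ => f ((R a ∘ σ) * (R b ∘ ρ))]
      refine hsum'.trans (Finset.sum_congr rfl fun k _ => congrArg f ?_)
      funext i
      have := congrFun (hτ' k b) (σ i)
      simp only [Function.comp] at this
      simp only [Pi.mul_apply, Function.comp, Perm.mul_apply, ← this]
      generalize σ i = i'
      fin_cases i' <;> simp [R, tmul]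
    have hwt : ∀ j, wt j (rowItem E M a b t x).2.flatten =
        wt j (decEntries E 3 (blk E x 0)) + (wt j (decEntries E 3 (blk E x 1)) +
        (wt j (decEntries E 3 (blk E x 2)) + (wt j (decEntries E 3 (blk E x 3)) +
        (wt j (decEntries E 3 (blk E x 4)) + (wt j (decEntries E 3 (blk E x 5)) +
          (bif 0 == j then pairTot M a b - pairW E x else 0)))))) := fun j => by
      simp [rowItem, decBlocks_six, wt_append, wt, add_assoc]
    have hrest : ∑ j ∈ Finset.range K,
        ((bif 0 == j then pairTot M a b - pairW E x else 0 : ℕ) : ℝ) * sym f (R (gv P j)) =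
          ((pairTot M a b - pairW E x : ℕ) : ℝ) * sym f (R (gv P 0)) := by
      obtain ⟨-, hK, -, -⟩ := topOK_spec htop
      rw [Finset.sum_eq_single_of_mem 0 (Finset.mem_range.2 hK) fun j _ hj => by
        rw [show (0 == j) = false from beq_eq_false_iff_ne.2 hj.symm]; simp]
      simp
    rw [hv, Fin.sum_univ_six]
    simp only [hwt, Nat.cast_add, add_mul, Finset.sum_add_distrib, hrest, mul_add]
    rw [w0] at n0 s0; rw [w1] at n1 s1; rw [w2] at n2 s2
    rw [w3] at n3 s3; rw [w4] at n4 s4; rw [w5] at n5 s5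
    have hp : ((pairTot M a b - pairW E x : ℕ) : ℝ) =
        ((M * ((tmul a (tperm 0 b)).1 + (tmul a (tperm 0 b)).2.1 + (tmul a (tperm 0 b)).2.2) - blockW E (blk E x 0) : ℕ) : ℝ)
        + ((M * ((tmul a (tperm 1 b)).1 + (tmul a (tperm 1 b)).2.1 + (tmul a (tperm 1 b)).2.2) - blockW E (blk E x 1) : ℕ) : ℝ)
        + ((M * ((tmul a (tperm 2 b)).1 + (tmul a (tperm 2 b)).2.1 + (tmul a (tperm 2 b)).2.2) - blockW E (blk E x 2) : ℕ) : ℝ)
        + ((M * ((tmul a (tperm 3 b)).1 + (tmul a (tperm 3 b)).2.1 + (tmul a (tperm 3 b)).2.2) - blockW E (blk E x 3) : ℕ) : ℝ)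
        + ((M * ((tmul a (tperm 4 b)).1 + (tmul a (tperm 4 b)).2.1 + (tmul a (tperm 4 b)).2.2) - blockW E (blk E x 4) : ℕ) : ℝ)
        + ((M * ((tmul a (tperm 5 b)).1 + (tmul a (tperm 5 b)).2.1 + (tmul a (tperm 5 b)).2.2) - blockW E (blk E x 5) : ℕ) : ℝ) := by
      rw [htt, ← Nat.cast_add, ← Nat.cast_add, ← Nat.cast_add, ← Nat.cast_add, ← Nat.cast_add]
      refine congrArg Nat.cast ?_
      simp only [pairW, Nat.add_eq]
      omega
    rw [hp]
    simp only [Fin.val_zero, Fin.val_one, Fin.val_two]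
    simp only [show ((3 : Fin 6) : ℕ) = 3 from rfl, show ((4 : Fin 6) : ℕ) = 4 from rfl,
      show ((5 : Fin 6) : ℕ) = 5 from rfl]
    linarith

/-- The packed code is the code of the row as a list. -/
theorem rowCode_eq (a b : T) (t x : ℕ) : rowCode W E M a b t x = code W (rowItem E M a b t x) := by
  rw [rowItem, decBlocks_six, code, sumK_eq, mapK_eq, catK_eq]
  simp only [List.flatten_cons, List.flatten_nil, List.cons_append, List.nil_append,
    List.append_nil, List.map_append, List.sum_append, List.map_cons, List.map_nil, List.sum_cons,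
    List.sum_nil]
  have e : ∀ y, blockCode W E y =
      ((decEntries E 3 y).map fun e => e.2.2 <<< (W * (e.1 + 1))).sum := fun y => by
    show _ = ((decEntries E 3 y).map _).sum
    rw [← sumK_eq, ← mapK_eq]
    show _ + (_ + _) = _ + (_ + (_ + 0))
    rw [Nat.add_zero]
    rfl
  simp only [rowCode, Nat.add_eq, e, Nat.zero_add, Nat.mul_one, Nat.add_zero]
  rfl

section Lines
variable {α β : Type} {f : T → ℕ → ℕ → α}

theorem catK_cons (l : List α) (r : List (List α)) : catK (l :: r) = l ++ catK r := by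
  simp [catK_eq]

theorem lineMap_map (g : α → β) (f : T → ℕ → ℕ → α) : ∀ (ys : List T) (l : List ℕ) (t : ℕ),
    (lineMap f ys l t).map g = lineMap (fun y t x => g (f y t x)) ys l t
  | [], _, _ => rfl
  | _ :: _, [], _ => rfl
  | y :: ys, x :: l, t => by
    show g (f y t x) :: (lineMap f ys l (t + 1)).map g =
      g (f y t x) :: lineMap (fun y t x => g (f y t x)) ys l (t + 1)
    rw [lineMap_map g f ys l (t + 1)]

theorem upMap_map (g : α → β) (f : T → T → ℕ → ℕ → α) : ∀ (xs : List T) (r : List (List ℕ)) (s : ℕ),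
    (catK (upMap f xs r s)).map g = catK (upMap (fun a b t x => g (f a b t x)) xs r s)
  | [], _, _ => rfl
  | _ :: _, [], _ => rfl
  | a :: t, l :: r, s => by
    show (catK (lineMap (f a) (a :: t) l s :: upMap f t r (s + 256))).map g =
      catK (lineMap (fun b t x => g (f a b t x)) (a :: t) l s ::
        upMap (fun a b t x => g (f a b t x)) t r (s + 256))
    rw [catK_cons, catK_cons, List.map_append, lineMap_map, upMap_map g f t r (s + 256)]

theorem allMap_map (g : α → β) (f : T → T → ℕ → ℕ → α) (ys : List T) :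
    ∀ (xs : List T) (r : List (List ℕ)) (s : ℕ),
    (catK (allMap f ys xs r s)).map g = catK (allMap (fun a b t x => g (f a b t x)) ys xs r s)
  | [], _, _ => rfl
  | _ :: _, [], _ => rfl
  | a :: xs, l :: r, s => by
    show (catK (lineMap (f a) ys l s :: allMap f ys xs r (s + 256))).map g =
      catK (lineMap (fun b t x => g (f a b t x)) ys l s ::
        allMap (fun a b t x => g (f a b t x)) ys xs r (s + 256))
    rw [catK_cons, catK_cons, List.map_append, lineMap_map, allMap_map g f ys xs r (s + 256)]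

theorem pairUp_cons (a : α) (t : List α) :
    pairUp (a :: t) = (a :: t).map (fun y => (a, y)) ++ pairUp t := by
  show (a, a) :: List.rec (motive := fun _ => List (α × α)) (pairUp t)
    (fun y _ r => (a, y) :: r) t = _
  rw [List.map_cons, List.cons_append]
  congr 1
  generalize pairUp t = u
  induction t with
  | nil => rfl
  | cons y t ih => simp [ih]

theorem pairAll_cons (a : α) (xs ys : List α) :
    pairAll (a :: xs) ys = ys.map (fun y => (a, y)) ++ pairAll xs ys := by
  show List.rec (motive := fun _ => List (α × α)) (pairAll xs ys)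
    (fun y _ r => (a, y) :: r) ys = _
  generalize pairAll xs ys = u
  induction ys with
  | nil => rfl
  | cons y t ih => simp [ih]

theorem line_good {ok : T → ℕ → ℕ → Bool} {item : T → ℕ → ℕ → β} {Good : T → β → Prop}
    (h : ∀ b t x, ok b t x = true → Good b (item b t x)) :
    ∀ (ys : List T) (l : List ℕ) (t : ℕ), lineOK ok ys l t = true →
      List.Forall₂ Good ys (lineMap item ys l t) ∧ l.length = ys.length
  | [], [], _, _ => ⟨List.Forall₂.nil, rfl⟩
  | [], _ :: _, _, h' => absurd h' Bool.false_ne_true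
  | _ :: _, [], _, h' => absurd h' Bool.false_ne_true
  | y :: ys, x :: l, t, h' => by
    obtain ⟨h1, h2⟩ : ok y t x = true ∧ lineOK ok ys l (t + 1) = true := by
      simpa [Bool.and_eq_true] using (show (ok y t x && lineOK ok ys l (t + 1)) = true from h')
    obtain ⟨g1, g2⟩ := line_good h ys l (t + 1) h2
    exact ⟨List.Forall₂.cons (h y t x h1) g1, by simp [g2]⟩

theorem up_good {ok : T → T → ℕ → ℕ → Bool} {item : T → T → ℕ → ℕ → β} {Good : T × T → β → Prop}
    (h : ∀ a b t x, ok a b t x = true → Good (a, b) (item a b t x)) :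
    ∀ (xs : List T) (r : List (List ℕ)) (s : ℕ), upOK ok xs r s = true →
      List.Forall₂ Good (pairUp xs) (catK (upMap item xs r s))
  | [], [], _, _ => List.Forall₂.nil
  | [], _ :: _, _, h' => absurd h' Bool.false_ne_true
  | _ :: _, [], _, h' => absurd h' Bool.false_ne_true
  | a :: t, l :: r, s, h' => by
    obtain ⟨h1, h2⟩ : lineOK (ok a) (a :: t) l s = true ∧ upOK ok t r (s + 256) = true := by
      simpa [Bool.and_eq_true] using
        (show (lineOK (ok a) (a :: t) l s && upOK ok t r (s + 256)) = true from h')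
    rw [pairUp_cons]
    show List.Forall₂ Good _ (catK (lineMap (item a) (a :: t) l s :: upMap item t r (s + 256)))
    rw [catK_cons]
    exact List.rel_append ((List.forall₂_map_left_iff).2
      (line_good (Good := fun b it => Good (a, b) it) (h a) _ l s h1).1)
      (up_good h t r (s + 256) h2)

theorem all_good {ok : T → T → ℕ → ℕ → Bool} {item : T → T → ℕ → ℕ → β} {Good : T × T → β → Prop}
    (h : ∀ a b t x, ok a b t x = true → Good (a, b) (item a b t x)) (ys : List T) :
    ∀ (xs : List T) (r : List (List ℕ)) (s : ℕ), allOK ok ys xs r s = true →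
      List.Forall₂ Good (pairAll xs ys) (catK (allMap item ys xs r s))
  | [], [], _, _ => List.Forall₂.nil
  | [], _ :: _, _, h' => absurd h' Bool.false_ne_true
  | _ :: _, [], _, h' => absurd h' Bool.false_ne_true
  | a :: t, l :: r, s, h' => by
    obtain ⟨h1, h2⟩ : lineOK (ok a) ys l s = true ∧ allOK ok ys t r (s + 256) = true := by
      simpa [Bool.and_eq_true] using
        (show (lineOK (ok a) ys l s && allOK ok ys t r (s + 256)) = true from h')
    rw [pairAll_cons]
    show List.Forall₂ Good _ (catK (lineMap (item a) ys l s :: allMap item ys t r (s + 256)))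
    rw [catK_cons]
    exact List.rel_append ((List.forall₂_map_left_iff).2
      (line_good (Good := fun b it => Good (a, b) it) (h a) _ l s h1).1)
      (all_good h ys t r (s + 256) h2)

end Lines

theorem dot_append : ∀ (a : List ℕ) (x : List ℕ) (b y : List ℕ), a.length = x.length →
    dot (a ++ b) (x ++ y) = dot a x + dot b y
  | [], [], b, y, _ => (Nat.zero_add _).symm
  | [], _ :: _, _, _, h => by simp at h
  | _ :: _, [], _, _, h => by simp at h
  | c :: a, v :: x, b, y, h => by
    simp only [List.cons_append, dot_cons, dot_append a x b y (by simpa using h)]; ring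

theorem dot_map_mul (k : ℕ) : ∀ (a r : List ℕ), dot (a.map (k * ·)) r = k * dot a r
  | [], r => by simp [dot_nil_left]
  | c :: a, [] => by simp [dot_nil_right]
  | c :: a, v :: r => by simp only [List.map_cons, dot_cons, dot_map_mul k a r]; ring

theorem coefRow_self (x : ℕ) (acc : List ℕ) : ∀ t : List ℕ,
    coefRow x x acc t t = t.map (2 * x * ·) ++ acc
  | [] => rfl
  | a :: t => by
    show (x * a + a * x) :: coefRow x x acc t t = _
    rw [coefRow_self x acc t, List.map_cons, List.cons_append, show x * a + a * x = 2 * x * a by ring]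

theorem sum_map_mul (k : ℕ) : ∀ t : List ℕ, (t.map (k * ·)).sum = k * t.sum
  | [] => by simp
  | a :: t => by simp only [List.map_cons, List.sum_cons, sum_map_mul k t]; ring

/-- Rows of lengths `|m|, |m| - 1, …`. -/
def UpShape : List ℕ → List (List ℕ) → Prop
  | [], [] => True
  | x :: t, r :: rs => r.length = (x :: t).length ∧ UpShape t rs
  | _, _ => False

theorem triSq_eq : ∀ (m : List ℕ) (rows : List (List ℕ)), UpShape m rows →
    triSq m rows = dot (coefUp m m) (catK rows)
  | [], [], _ => rfl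
  | x :: t, (r₀ :: r₁) :: rs, h => by
    show x * (x * r₀ + 2 * dot t r₁) + triSq t rs =
      dot (x * x :: coefRow x x (coefUp t t) t t) (catK ((r₀ :: r₁) :: rs))
    rw [catK_cons, coefRow_self, List.cons_append, dot_cons,
      dot_append _ _ _ _ (by simpa using (Nat.succ_injective h.1).symm), dot_map_mul,
      triSq_eq t rs h.2]
    ring
  | x :: t, [] :: rs, h => absurd h.1 (by simp)
  | [], _ :: _, h => h.elim
  | _ :: _, [], h => h.elim

theorem sum_coefUp : ∀ m : List ℕ, (coefUp m m).sum = m.sum * m.sum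
  | [] => rfl
  | x :: t => by
    show (x * x :: coefRow x x (coefUp t t) t t).sum = _
    rw [coefRow_self, List.sum_cons, List.sum_append, sum_map_mul, sum_coefUp t, List.sum_cons]
    ring

theorem coefAll_cons (x : ℕ) (m n : List ℕ) :
    coefAll (x :: m) n = n.map (x * ·) ++ coefAll m n := by
  show List.rec (motive := fun _ => List ℕ) (coefAll m n) (fun y _ r => x * y :: r) n = _
  generalize coefAll m n = u
  induction n with
  | nil => rfl
  | cons y t ih => simp [ih]

theorem sum_coefAll : ∀ m n : List ℕ, (coefAll m n).sum = m.sum * n.sum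
  | [], n => by simp [coefAll]
  | x :: m, n => by
    rw [coefAll_cons, List.sum_append, sum_map_mul, sum_coefAll m n, List.sum_cons]; ring

theorem dotAll_eq (n : List ℕ) : ∀ (m : List ℕ) (rows : List (List ℕ)),
    rows.length = m.length → (∀ r ∈ rows, r.length = n.length) →
    dotAll m n rows = dot (coefAll m n) (catK rows)
  | [], [], _, _ => rfl
  | [], _ :: _, h, _ => by simp at h
  | _ :: _, [], h, _ => by simp at h
  | x :: m, r :: rs, h, h' => by
    show x * dot n r + dotAll m n rs = _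
    rw [coefAll_cons, catK_cons,
      dot_append _ _ _ _ (by rw [List.length_map, h' r List.mem_cons_self]), dot_map_mul,
      dotAll_eq n m rs (by simpa using h) fun q hq => h' q (List.mem_cons_of_mem _ hq)]

theorem lineMap_length {α : Type} (f : T → ℕ → ℕ → α) : ∀ (ys : List T) (l : List ℕ) (t : ℕ),
    l.length = ys.length → (lineMap f ys l t).length = ys.length
  | [], _, _, _ => rfl
  | _ :: _, [], _, h => by simp at h
  | y :: ys, x :: l, t, h => by
    show (lineMap f ys l (t + 1)).length + 1 = _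
    rw [lineMap_length f ys l (t + 1) (by simpa using h), List.length_cons]

theorem upMap_shape {ok : T → T → ℕ → ℕ → Bool} (f : T → T → ℕ → ℕ → ℕ) :
    ∀ (xs : List T) (m : List ℕ) (r : List (List ℕ)) (s : ℕ), m.length = xs.length →
      upOK ok xs r s = true → UpShape m (upMap f xs r s)
  | [], [], _, _, _, _ => trivial
  | [], _ :: _, _, _, h, _ => by simp at h
  | _ :: _, [], _, _, h, _ => by simp at h
  | _ :: _, _ :: _, [], _, _, h' => absurd h' Bool.false_ne_true
  | a :: t, x :: m, l :: r, s, h, h' => by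
    obtain ⟨h1, h2⟩ : lineOK (ok a) (a :: t) l s = true ∧ upOK ok t r (s + 256) = true := by
      simpa [Bool.and_eq_true] using
        (show (lineOK (ok a) (a :: t) l s && upOK ok t r (s + 256)) = true from h')
    refine ⟨?_, upMap_shape f t m r (s + 256) (by simpa using h) h2⟩
    rw [lineMap_length (f a) _ l s (line_good (Good := fun _ (_ : Unit) => True)
      (item := fun _ _ _ => ()) (fun _ _ _ _ => trivial) _ l s h1).2]
    simpa using h.symm

theorem allMap_shape {ok : T → T → ℕ → ℕ → Bool} (f : T → T → ℕ → ℕ → ℕ) (ys : List T) :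
    ∀ (xs : List T) (r : List (List ℕ)) (s : ℕ), allOK ok ys xs r s = true →
      (allMap f ys xs r s).length = xs.length ∧
        ∀ q ∈ allMap f ys xs r s, q.length = ys.length
  | [], _, _, _ => ⟨rfl, fun q hq => by simp [allMap] at hq⟩
  | _ :: _, [], _, h' => absurd h' Bool.false_ne_true
  | a :: t, l :: r, s, h' => by
    obtain ⟨h1, h2⟩ : lineOK (ok a) ys l s = true ∧ allOK ok ys t r (s + 256) = true := by
      simpa [Bool.and_eq_true] using
        (show (lineOK (ok a) ys l s && allOK ok ys t r (s + 256)) = true from h')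
    obtain ⟨g1, g2⟩ := allMap_shape f ys t r (s + 256) h2
    have hl := lineMap_length (f a) ys l s (line_good (Good := fun _ (_ : Unit) => True)
      (item := fun _ _ _ => ()) (fun _ _ _ _ => trivial) _ l s h1).2
    refine ⟨congrArg (· + 1) g1, fun q hq => ?_⟩
    rcases List.mem_cons.1 (show q ∈ lineMap (f a) ys l s :: allMap f ys t r (s + 256) from hq)
      with rfl | hq
    · exact hl
    · exact g2 q hq

theorem forall₂_zip {α β : Type} {R : α → β → Prop} : ∀ {l : List α} {m : List β},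
    List.Forall₂ R l m → l.length = m.length ∧ (∀ p ∈ l.zip m, R p.1 p.2) ∧
      ∀ b ∈ m, ∃ a, R a b
  | _, _, List.Forall₂.nil => by simp
  | _, _, List.Forall₂.cons (a := a) (b := b) h t => by
    obtain ⟨i1, i2, i3⟩ := forall₂_zip t
    refine ⟨by simp [i1], ?_, ?_⟩
    · rw [List.zip_cons_cons]
      exact List.forall_mem_cons.2 ⟨h, i2⟩
    · exact List.forall_mem_cons.2 ⟨⟨a, h⟩, i3⟩

theorem domP_rows {S S₂ U : ℕ} {xs ys : List T} {prs : List (T × T)} {items : List Item}
    {cs m n ps : List ℕ} (htop : topOK G K P = true) (hM : 0 < M) (hS : 0 < S) (hS₂ : 0 < S₂)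
    (hU : 0 < U)
    (hg : ∀ f, Posi f → List.Forall₂ (fun p it => itemOK K B it = true ∧
      ((G * M : ℕ) : ℝ) * pairVal f p ≤
        ∑ j ∈ Finset.range K, (wt j it.2.flatten : ℝ) * sym f (R (gv P j))) prs items)
    (he : ∀ F : T × T → ℝ, (∀ a b, F (a, b) = F (b, a)) →
      rdot cs (prs.map F) = rdot m (xs.map fun a => rdot n (ys.map fun b => F (a, b))))
    (hl : checkLevel W K B U (G * M * (S * S₂)) cs (items.map (code W)) ps = true) :
    DomP (tens (gch xs m S) (gch ys n S₂)) (gch (gridList K P) ps U) := by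
  intro f hf
  obtain ⟨hlen, hp, hok⟩ := forall₂_zip (hg f hf)
  obtain ⟨hG, -, -, -⟩ := topOK_spec htop
  have := lift hf (F := pairVal f) hlen (fun it hit => by
    obtain ⟨_, h⟩ := hok it hit; exact h.1) htop (fun x hx => (hp x hx).2) hl
  rw [fval_tens_gch hf, fval_gch hf.toSublin, ← he _ (pairVal_comm f)]
  push_cast at this
  refine div_le_of_step (c := (G : ℝ) * M) ?_
    (mul_pos (Nat.cast_pos.2 hS) (Nat.cast_pos.2 hS₂)) (Nat.cast_pos.2 hU) ?_
  · exact mul_pos (Nat.cast_pos.2 hG) (Nat.cast_pos.2 hM)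
  · linarith

/-- A certified square. -/
theorem domP_sq {S U : ℕ} {xs : List T} {m ps : List ℕ} {r : List (List ℕ)}
    (hm : m.length = xs.length) (hS : 0 < S) (hU : 0 < U) (hM : 0 < M)
    (htop : topOK G K P = true) (ht : sqTableOK Z E G K B P P₆ M xs r = true)
    (hl : checkSq W K B U (G * M * (S * S)) m (sqCodes W E M xs r) ps = true) :
    DomP (tens (gch xs m S) (gch xs m S)) (gch (gridList K P) ps U) := by
  simp only [sqTableOK, Bool.and_eq_true, Nat.blt_eq] at ht
  obtain ⟨hP, hB, hup⟩ := ht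
  refine domP_rows (W := W) (cs := coefUp m m) (items := catK (upMap (rowItem E M) xs r 1)) htop hM hS hS hU
    (fun f hf => up_good (fun a b t x h => row_spec htop hP hB h hf) xs r 1 hup)
    (fun F hF => rdot_pairUp F hF m m xs hm hm) ?_
  rw [upMap_map]
  simp only [← rowCode_eq]
  simp only [checkSq, Bool.and_eq_true] at hl
  simp only [checkLevel, Bool.and_eq_true]
  rw [sumK_eq, sum_coefUp, ← sumK_eq, ← triSq_eq m _ (upMap_shape _ xs m r 1 hm hup)]
  exact hl

/-- A certified product of two lists. -/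
theorem domP_prod {S S₂ U : ℕ} {xs ys : List T} {m n ps : List ℕ} {r : List (List ℕ)}
    (hm : m.length = xs.length) (hn : n.length = ys.length) (hS : 0 < S) (hS₂ : 0 < S₂)
    (hU : 0 < U) (hM : 0 < M) (htop : topOK G K P = true)
    (ht : prodTableOK Z E G K B P P₆ M xs ys r = true)
    (hl : checkProd W K B U (G * M * (S * S₂)) m n (prodCodes W E M xs ys r) ps = true) :
    DomP (tens (gch xs m S) (gch ys n S₂)) (gch (gridList K P) ps U) := by
  simp only [prodTableOK, Bool.and_eq_true, Nat.blt_eq] at ht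
  obtain ⟨hP, hB, hall⟩ := ht
  obtain ⟨s1, s2⟩ := allMap_shape (rowCode W E M) ys xs r 1 hall
  refine domP_rows (W := W) (cs := coefAll m n) (items := catK (allMap (rowItem E M) ys xs r 1)) htop hM hS
    hS₂ hU (fun f hf => all_good (fun a b t x h => row_spec htop hP hB h hf) ys xs r 1 hall)
    (fun F _ => rdot_pairAll F m xs n ys hm hn) ?_
  rw [allMap_map]
  simp only [← rowCode_eq]
  simp only [checkProd, Bool.and_eq_true] at hl
  simp only [checkLevel, Bool.and_eq_true]
  rw [sumK_eq, sum_coefAll, ← sumK_eq, ← sumK_eq,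
    ← dotAll_eq n m _ (by rw [s1, hm]) (fun q hq => by rw [s2 q hq, hn])]
  exact hl

theorem dot_coefRow (x y : ℕ) (acc : List ℕ) : ∀ (t u r : List ℕ) (r' : List ℕ),
    t.length = u.length → t.length = r.length →
    dot (coefRow x y acc t u) (r ++ r') = x * dot u r + y * dot t r + dot acc r'
  | [], [], [], r', _, _ => by simp [dot_nil_left, coefRow]
  | [], _ :: _, _, _, h, _ => by simp at h
  | [], _, _ :: _, _, _, h => by simp at h
  | _ :: _, [], _, _, h, _ => by simp at h
  | _ :: _, _, [], _, _, h => by simp at h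
  | a :: t, b :: u, v :: r, r', h, h' => by
    show dot ((x * b + a * y) :: coefRow x y acc t u) (v :: (r ++ r')) = _
    simp only [dot_cons, dot_coefRow x y acc t u r r' (by simpa using h) (by simpa using h')]
    ring

theorem sum_coefRow (x y : ℕ) (acc : List ℕ) : ∀ t u : List ℕ, t.length = u.length →
    (coefRow x y acc t u).sum = x * u.sum + y * t.sum + acc.sum
  | [], [], _ => by simp [coefRow]
  | [], _ :: _, h => by simp at h
  | _ :: _, [], h => by simp at h
  | a :: t, b :: u, h => by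
    show ((x * b + a * y) :: coefRow x y acc t u).sum = _
    simp only [List.sum_cons, sum_coefRow x y acc t u (by simpa using h)]
    ring

theorem sum_coefUp2 : ∀ m n : List ℕ, m.length = n.length →
    (coefUp m n).sum = m.sum * n.sum
  | [], [], _ => rfl
  | [], _ :: _, h => by simp at h
  | _ :: _, [], h => by simp at h
  | x :: t, y :: u, h => by
    show (x * y :: coefRow x y (coefUp t u) t u).sum = _
    simp only [List.sum_cons, sum_coefRow x y _ t u (by simpa using h),
      sum_coefUp2 t u (by simpa using h)]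
    ring

theorem triMul_eq : ∀ (m n : List ℕ) (rows : List (List ℕ)), m.length = n.length →
    UpShape m rows → triMul m n rows = dot (coefUp m n) (catK rows)
  | [], [], [], _, _ => rfl
  | [], _ :: _, _, h, _ => by simp at h
  | _ :: _, [], _, h, _ => by simp at h
  | [], [], _ :: _, _, h => h.elim
  | x :: t, y :: u, (r₀ :: r₁) :: rs, h, hs => by
    show x * (y * r₀ + dot u r₁) + y * dot t r₁ + triMul t u rs =
      dot (x * y :: coefRow x y (coefUp t u) t u) (catK ((r₀ :: r₁) :: rs))
    rw [catK_cons, List.cons_append, dot_cons, dot_coefRow x y _ t u r₁ _ (by simpa using h)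
      (Nat.succ_injective hs.1).symm, triMul_eq t u rs (by simpa using h) hs.2]
    ring
  | _ :: _, _ :: _, [] :: _, _, hs => absurd hs.1 (by simp)
  | _ :: _, _ :: _, [], _, hs => hs.elim

/-- A certified product of two channels on one list of vectors. -/
theorem domP_mul {S S₂ U : ℕ} {xs : List T} {m n ps : List ℕ} {r : List (List ℕ)}
    (hm : m.length = xs.length) (hn : n.length = xs.length) (hS : 0 < S) (hS₂ : 0 < S₂)
    (hU : 0 < U) (hM : 0 < M) (htop : topOK G K P = true)
    (ht : sqTableOK Z E G K B P P₆ M xs r = true)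
    (hl : checkMul W K B U (G * M * (S * S₂)) m n (sqCodes W E M xs r) ps = true) :
    DomP (tens (gch xs m S) (gch xs n S₂)) (gch (gridList K P) ps U) := by
  simp only [sqTableOK, Bool.and_eq_true, Nat.blt_eq] at ht
  obtain ⟨hP, hB, hup⟩ := ht
  refine domP_rows (W := W) (cs := coefUp m n) (items := catK (upMap (rowItem E M) xs r 1)) htop hM
    hS hS₂ hU (fun f hf => up_good (fun a b t x h => row_spec htop hP hB h hf) xs r 1 hup)
    (fun F hF => rdot_pairUp F hF m n xs hm hn) ?_
  rw [upMap_map]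
  simp only [← rowCode_eq]
  simp only [checkMul, Bool.and_eq_true] at hl
  simp only [checkLevel, Bool.and_eq_true]
  rw [sumK_eq, sum_coefUp2 m n (hm.trans hn.symm), ← sumK_eq, ← sumK_eq,
    ← triMul_eq m n _ (hm.trans hn.symm) (upMap_shape _ xs m r 1 hm hup)]
  exact hl

theorem oneCode_eq (a : T) (t x : ℕ) : oneCode W E M a t x =
    code W (t, [decEntries E 3 x, [(0, 0, M * (a.1 + (a.2.1 + a.2.2)) - blockW E x)]]) := by
  rw [code, sumK_eq, mapK_eq, catK_eq]
  simp only [List.flatten_cons, List.flatten_nil, List.append_nil, List.map_append,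
    List.sum_append, List.map_cons, List.map_nil, List.sum_cons, List.sum_nil]
  have e : blockCode W E x = ((decEntries E 3 x).map fun e => e.2.2 <<< (W * (e.1 + 1))).sum := by
    show _ = ((decEntries E 3 x).map _).sum
    rw [← sumK_eq, ← mapK_eq]
    show _ + (_ + _) = _ + (_ + (_ + 0))
    rw [Nat.add_zero]
    rfl
  simp only [oneCode, Nat.add_eq, e, Nat.zero_add, Nat.mul_one, Nat.add_zero]
  rfl

/-- A certified split onto the grid. -/
theorem domP_one {S U : ℕ} {xs : List T} {m ps : List ℕ} {l : List ℕ}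
    (hS : 0 < S) (hU : 0 < U) (hM : 0 < M) (htop : topOK G K P = true)
    (ht : oneTableOK Z E G K B P P₆ M xs l = true)
    (hl : checkLevel W K B U (G * M * S) m (oneCodes W E M xs l) ps = true) :
    DomP (gch xs m S) (gch (gridList K P) ps U) := by
  simp only [oneTableOK, Bool.and_eq_true, Nat.blt_eq] at ht
  obtain ⟨hP, hB, hline⟩ := ht
  obtain ⟨hG, hK, -, -⟩ := topOK_spec htop
  intro f hf
  let item : T → ℕ → ℕ → Item := fun a t x =>
    (t, [decEntries E 3 x, [(0, 0, M * (a.1 + (a.2.1 + a.2.2)) - blockW E x)]])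
  have good : ∀ a t x, oneOK (Nat.mul G M) Z E K B P₆ M a t x = true →
      itemOK K B (item a t x) = true ∧ ((G * M : ℕ) : ℝ) * sym f (R a) ≤
        ∑ j ∈ Finset.range K, (wt j (item a t x).2.flatten : ℝ) * sym f (R (gv P j)) := by
    intro a t x h
    simp only [oneOK, Bool.and_eq_true, Nat.ble_eq, Nat.mul_eq, Nat.add_eq] at h
    obtain ⟨hb, htot, hw, ht'⟩ := h
    obtain ⟨l0, a0, w0⟩ := blockLE_spec (B := B) htop hP hb hw hB
    have hall : ((decEntries E 3 x).all fun e => decide (e.1 < K)) = true := by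
      simpa [allK_eq, List.all_eq_true, Nat.blt_eq] using a0
    obtain ⟨n0, s0⟩ := split_le (v := a) htop hf hall l0
    rw [w0] at n0 s0
    constructor
    · simp only [allK_eq] at a0
      simp only [item, itemOK, catK_eq, allK_eq, List.flatten_cons, List.flatten_nil,
        List.append_nil, List.all_append, List.all_cons, List.all_nil, wsum_append, w0, a0,
        Bool.and_eq_true, Nat.ble_eq, and_true, Nat.blt_eq]
      refine ⟨⟨ht', ?_⟩, trivial, hK⟩
      show _ + (M * (a.1 + (a.2.1 + a.2.2)) - blockW E x + 0) ≤ B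
      rw [Nat.add_assoc] at n0
      omega
    · refine s0.trans (le_of_eq ?_)
      simp only [item, List.flatten_cons, List.flatten_nil, List.append_nil, wt_append, wt,
        Nat.cast_add, add_mul, Finset.sum_add_distrib]
      rw [Finset.sum_eq_single_of_mem 0 (Finset.mem_range.2 hK) (f := fun j =>
        ((bif 0 == j then M * (a.1 + (a.2.1 + a.2.2)) - blockW E x else 0 : ℕ) : ℝ) *
          sym f (R (gv P j))) fun j _ hj => by
        rw [show (0 == j) = false from beq_eq_false_iff_ne.2 hj.symm]; simp]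
      simp [Nat.add_assoc]
  obtain ⟨hlen, hp, hok⟩ := forall₂_zip (line_good (item := item)
    (Good := fun a it => itemOK K B it = true ∧ ((G * M : ℕ) : ℝ) * sym f (R a) ≤
      ∑ j ∈ Finset.range K, (wt j it.2.flatten : ℝ) * sym f (R (gv P j))) good xs l 1 hline).1
  have hcodes : (lineMap item xs l 1).map (code W) = oneCodes W E M xs l := by
    rw [lineMap_map]
    simp only [item, ← oneCode_eq]
    rfl
  rw [← hcodes] at hl
  have := lift hf (F := fun v => sym f (R v)) hlen (fun it hit => by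
    obtain ⟨_, h⟩ := hok it hit; exact h.1) htop (fun x hx => (hp x hx).2) hl
  rw [fval_gch hf.toSublin, fval_gch hf.toSublin]
  push_cast at this
  exact div_le_of_step (c := (G : ℝ) * M) (mul_pos (Nat.cast_pos.2 hG) (Nat.cast_pos.2 hM))
    (Nat.cast_pos.2 hS) (Nat.cast_pos.2 hU) this

end Vale.Agent.P154.Q3.DE
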