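import Vale.Agent.P154.DE.Packed
import Vale.Agent.P154.DE.Chain
import Vale.Agent.P154.End.Finish

/-!
# Certified recursion on regular trees

A level sends the masses on the grid to the square of the edge image and keeps a stack of group
sizes: products on the grid add two stored sizes, a product with the edge image adds one, and
the edge image split onto the grid starts a group of one child.
-/

namespace Vale.Agent.P154.Q3.DE

open scoped BigOperators

/-- The packed tables of a run. -/
structure Tables where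
  /-- edge times edge -/
  ee : List (List ℕ)
  /-- grid times grid -/
  gg : List (List ℕ)
  /-- grid times edge -/
  ge : List (List ℕ)
  /-- edge onto grid -/
  se : List ℕ

/-- Numerical parameters of a run; `S` is the common scale of all mass lists. -/
structure Par where
  /-- total of a grid vector -/
  G : ℕ
  /-- number of orbits -/
  K : ℕ
  /-- packed grid -/
  P : ℕ
  /-- packed permuted grid -/
  P₆ : ℕ
  /-- field width of `P₆` -/
  Z : ℕ
  /-- eigenvalue `-p/q` -/
  p : ℕ
  /-- eigenvalue `-p/q` -/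
  q : ℕ
  /-- scale -/
  S : ℕ
  /-- slot width -/
  W : ℕ
  /-- weight bound, entry width and multiplier of edge times edge -/
  ee : ℕ × ℕ × ℕ
  /-- weight bound, entry width and multiplier of grid times grid -/
  gg : ℕ × ℕ × ℕ
  /-- weight bound, entry width and multiplier of grid times edge -/
  ge : ℕ × ℕ × ℕ
  /-- weight bound, entry width and multiplier of the edge split -/
  se : ℕ × ℕ × ℕ

/-- The edge images of the grid. -/
noncomputable def Par.edges (π : Par) : List T := mapK (eV π.p π.q) (gridList π.K π.P)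

/-- The tables are valid; an empty table is allowed where it is not used. -/
def Valid (π : Par) (t : Tables) : Prop :=
  0 < π.q ∧ 2 * π.p ≤ π.q ∧ 0 < π.S ∧ (0 < π.ee.2.2 ∧ 0 < π.gg.2.2 ∧ 0 < π.ge.2.2 ∧ 0 < π.se.2.2) ∧
    topOK π.G π.K π.P = true ∧
    sqTableOK π.Z π.ee.2.1 π.G π.K π.ee.1 π.P π.P₆ π.ee.2.2 π.edges t.ee = true ∧
    (t.gg = [] ∨ sqTableOK π.Z π.gg.2.1 π.G π.K π.gg.1 π.P π.P₆ π.gg.2.2
      (gridList π.K π.P) t.gg = true) ∧
    (t.ge = [] ∨ prodTableOK π.Z π.ge.2.1 π.G π.K π.ge.1 π.P π.P₆ π.ge.2.2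
      (gridList π.K π.P) π.edges t.ge = true) ∧
    (t.se = [] ∨ oneTableOK π.Z π.se.2.1 π.G π.K π.se.1 π.P π.P₆ π.se.2.2 π.edges t.se = true)

/-- A step: `kind`, positions in the stack, claimed masses. Kind `0` multiplies two stored
groups, `1` adds one child to a stored group, any other kind stores a group of one child. -/
abbrev Op := ℕ × ℕ × ℕ × List ℕ

/-- A stored group. -/
noncomputable def getE (st : List (ℕ × List ℕ)) : ℕ → ℕ × List ℕ :=
  List.rec (motive := fun _ => ℕ → ℕ × List ℕ) (fun _ => (0, []))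
    (fun x _ ih i => bif Nat.beq i 0 then x else ih (Nat.sub i 1)) st

/-- One step. -/
noncomputable def opOK (π : Par) (t : Tables) (m : List ℕ) (o : Op) (st : List (ℕ × List ℕ)) :
    Bool :=
  bif Nat.beq o.1 0 then
    (!t.gg.isEmpty) && (Nat.beq (getE st o.2.1).2.length π.K &&
      (Nat.beq (getE st o.2.2.1).2.length π.K &&
      (bif Nat.beq o.2.1 o.2.2.1 then
        checkSq π.W π.K π.gg.1 π.S (π.G * π.gg.2.2 * (π.S * π.S)) (getE st o.2.1).2
          (sqCodes π.W π.gg.2.1 π.gg.2.2 (gridList π.K π.P) t.gg) o.2.2.2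
      else
        checkMul π.W π.K π.gg.1 π.S (π.G * π.gg.2.2 * (π.S * π.S)) (getE st o.2.1).2
          (getE st o.2.2.1).2 (sqCodes π.W π.gg.2.1 π.gg.2.2 (gridList π.K π.P) t.gg) o.2.2.2)))
  else bif Nat.beq o.1 1 then
    (!t.ge.isEmpty) && (Nat.beq (getE st o.2.1).2.length π.K &&
      checkProd π.W π.K π.ge.1 π.S (π.G * π.ge.2.2 * (π.S * (3 * π.q * π.S))) (getE st o.2.1).2 m
        (prodCodes π.W π.ge.2.1 π.ge.2.2 (gridList π.K π.P) π.edges t.ge) o.2.2.2)
  else
    (!t.se.isEmpty) && checkLevel π.W π.K π.se.1 π.S (π.G * π.se.2.2 * (3 * π.q * π.S)) m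
      (oneCodes π.W π.se.2.1 π.se.2.2 π.edges t.se) o.2.2.2

/-- The number of children of the group made by a step. -/
noncomputable def opExp (o : Op) (st : List (ℕ × List ℕ)) : ℕ :=
  bif Nat.beq o.1 0 then Nat.add (getE st o.2.1).1 (getE st o.2.2.1).1
  else bif Nat.beq o.1 1 then Nat.add (getE st o.2.1).1 1 else 1

/-- All steps of a level, the group made last having `k` children. -/
noncomputable def opsOK (π : Par) (t : Tables) (k : ℕ) (m : List ℕ) (ops : List Op) :
    List (ℕ × List ℕ) → Bool :=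
  List.rec (motive := fun _ => List (ℕ × List ℕ) → Bool) (fun st => Nat.beq (getE st 0).1 k)
    (fun o _ ih st => opOK π t m o st && ih ((opExp o st, o.2.2.2) :: st)) ops

/-- The masses after the steps. -/
def opsEnd : List Op → List ℕ → List ℕ
  | [], cur => cur
  | o :: os, _ => opsEnd os o.2.2.2

/-- A run of levels; each level is the first square and the products after it. -/
noncomputable def runOK (π : Par) (t : Tables) (k : ℕ)
    (l : List (List ℕ × List Op)) : List ℕ → Bool :=
  List.rec (motive := fun _ => List ℕ → Bool) (fun _ => true)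
    (fun e _ ih m => Nat.beq m.length π.K &&
      (checkSq π.W π.K π.ee.1 π.S (π.G * π.ee.2.2 * ((3 * π.q * π.S) * (3 * π.q * π.S))) m
          (sqCodes π.W π.ee.2.1 π.ee.2.2 π.edges t.ee) e.1 &&
        (opsOK π t k m e.2 [(2, e.1)] && ih (opsEnd e.2 e.1)))) l

/-- The masses after a run. -/
def runEnd : List (List ℕ × List Op) → List ℕ → List ℕ
  | [], m => m
  | e :: l, _ => runEnd l (opsEnd e.2 e.1)

variable {π : Par} {t : Tables} {k : ℕ}

theorem gridList_length (K P : ℕ) : (gridList K P).length = K := by simp [gridList, mapK_eq]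

theorem edges_length (π : Par) : π.edges.length = π.K := by
  simp [Par.edges, mapK_eq, gridList_length]

/-- Every stored group is bounded by its channel. -/
def StackOK (π : Par) (m : List ℕ) (st : List (ℕ × List ℕ)) : Prop :=
  ∀ e ∈ st, DomP (prodL fun _ : Fin e.1 => edge (-(π.p : ℝ) / π.q) (gch (gridList π.K π.P) m π.S))
    (gch (gridList π.K π.P) e.2 π.S)

theorem getE_mem : ∀ (st : List (ℕ × List ℕ)) (i : ℕ),
    getE st i ∈ st ∨ getE st i = (0, [])
  | [], _ => Or.inr rfl
  | x :: st, i => by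
    show (bif Nat.beq i 0 then x else getE st (i - 1)) ∈ x :: st ∨
      (bif Nat.beq i 0 then x else getE st (i - 1)) = (0, [])
    cases Nat.beq i 0 with
    | true => exact Or.inl List.mem_cons_self
    | false =>
      rcases getE_mem st (i - 1) with h | h
      · exact Or.inl (List.mem_cons_of_mem _ h)
      · exact Or.inr h

theorem get_bound (hv : Valid π t) {m : List ℕ} {st : List (ℕ × List ℕ)} (hst : StackOK π m st)
    {i : ℕ} (hl : Nat.beq (getE st i).2.length π.K = true) :
    (getE st i).2.length = π.K ∧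
      DomP (prodL fun _ : Fin (getE st i).1 =>
        edge (-(π.p : ℝ) / π.q) (gch (gridList π.K π.P) m π.S))
        (gch (gridList π.K π.P) (getE st i).2 π.S) := by
  obtain ⟨-, -, -, -, htop, -, -, -, -⟩ := hv
  have hl' := Nat.eq_of_beq_eq_true hl
  refine ⟨hl', hst _ ((getE_mem st i).resolve_right fun e => ?_)⟩
  obtain ⟨-, hK, -, -⟩ := topOK_spec htop
  rw [e] at hl'
  simp at hl'
  omega

theorem op_sound (hv : Valid π t) {m : List ℕ} (hm : m.length = π.K) {st : List (ℕ × List ℕ)}
    (hst : StackOK π m st) {o : Op} (h : opOK π t m o st = true) :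
    DomP (prodL fun _ : Fin (opExp o st) =>
      edge (-(π.p : ℝ) / π.q) (gch (gridList π.K π.P) m π.S))
      (gch (gridList π.K π.P) o.2.2.2 π.S) := by
  have hv' := hv
  obtain ⟨hq, hpq, hS, ⟨-, hM₂, hM₃, hM₄⟩, htop, -, hgg, hge, hse⟩ := hv'
  obtain ⟨l0, l1⟩ := lam_bounds hq hpq
  have hC : ∀ η i, 0 ≤ edge (-(π.p : ℝ) / π.q) (gch (gridList π.K π.P) m π.S) η i := fun η =>
    push_nonneg l0 l1 (gch_nonneg _ _ _ η)
  have hE := domP_edge hq hpq (gridList π.K π.P) m π.S
  rw [← mapK_eq] at hE
  obtain ⟨kind, i, j, ps⟩ := o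
  suffices H : ∀ a, (bif Nat.beq kind 0 then Nat.add (getE st i).1 (getE st j).1
      else bif Nat.beq kind 1 then Nat.add (getE st i).1 1 else 1) = a →
      DomP (prodL fun _ : Fin a => edge (-(π.p : ℝ) / π.q) (gch (gridList π.K π.P) m π.S))
        (gch (gridList π.K π.P) ps π.S) from H _ rfl
  intro a ha
  simp only [opOK] at h
  cases h0 : Nat.beq kind 0 with
  | true =>
    simp only [h0, cond_true, Bool.and_eq_true] at h ha
    subst ha
    obtain ⟨hne, hli, hlj, hc⟩ := h
    obtain ⟨li, di⟩ := get_bound hv hst hli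
    obtain ⟨lj, dj⟩ := get_bound hv hst hlj
    have ht := hgg.resolve_left (by intro e; simp [e] at hne)
    refine domP_pow_add hC (gch_nonneg _ _ _) di dj ?_
    cases hij : Nat.beq i j with
    | true =>
      simp only [hij, cond_true] at hc
      obtain rfl : i = j := Nat.eq_of_beq_eq_true hij
      exact domP_sq (by rw [gridList_length]; exact li) hS hS hM₂ htop ht hc
    | false =>
      simp only [hij, cond_false] at hc
      exact domP_mul (by rw [gridList_length]; exact li) (by rw [gridList_length]; exact lj)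
        hS hS hS hM₂ htop ht hc
  | false =>
    simp only [h0, cond_false] at h ha
    cases h1 : Nat.beq kind 1 with
    | true =>
      simp only [h1, cond_true, Bool.and_eq_true] at h ha
      subst ha
      obtain ⟨hne, hli, hc⟩ := h
      obtain ⟨li, di⟩ := get_bound hv hst hli
      refine domP_pow_add hC (gch_nonneg _ _ _) di (domP_pow_one hE) ?_
      exact domP_prod (by rw [gridList_length]; exact li)
        (by rw [← edges_length π] at hm; exact hm) hS (Nat.mul_pos (by omega) hS) hS hM₃ htop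
        (hge.resolve_left (by intro e; simp [e] at hne)) hc
    | false =>
      simp only [h1, cond_false, Bool.and_eq_true] at h ha
      subst ha
      exact domP_pow_one (hE.trans (domP_one (Nat.mul_pos (by omega) hS) hS hM₄ htop
        (hse.resolve_left (by intro e; simp [e] at h)) h.2))

theorem ops_sound (hv : Valid π t) {m : List ℕ} (hm : m.length = π.K) :
    ∀ (ops : List Op) (cur : List ℕ) (a : ℕ) (rest : List (ℕ × List ℕ)),
    opsOK π t k m ops ((a, cur) :: rest) = true → StackOK π m ((a, cur) :: rest) →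
    DomP (prodL fun _ : Fin k => edge (-(π.p : ℝ) / π.q) (gch (gridList π.K π.P) m π.S))
      (gch (gridList π.K π.P) (opsEnd ops cur) π.S)
  | [], cur, a, rest, h, hst => by
    obtain rfl : a = k := Nat.eq_of_beq_eq_true h
    exact hst (a, cur) List.mem_cons_self
  | o :: os, cur, a, rest, h, hst => by
    obtain ⟨h1, h2⟩ : opOK π t m o ((a, cur) :: rest) = true ∧
        opsOK π t k m os ((opExp o ((a, cur) :: rest), o.2.2.2) :: (a, cur) :: rest) = true := by
      simpa [Bool.and_eq_true] using (show (opOK π t m o ((a, cur) :: rest) &&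
        opsOK π t k m os ((opExp o ((a, cur) :: rest), o.2.2.2) :: (a, cur) :: rest)) = true from h)
    refine ops_sound hv hm os o.2.2.2 _ _ h2 fun e he => ?_
    rcases List.mem_cons.1 he with rfl | he
    · exact op_sound hv hm hst h1
    · exact hst e he

theorem run_sound (hv : Valid π t) :
    ∀ (l : List (List ℕ × List Op)) (m : List ℕ) (n : ℕ), runOK π t k l m = true →
    DomP (lik (-(π.p : ℝ) / π.q) n (regTree k n)) (gch (gridList π.K π.P) m π.S) →
    DomP (lik (-(π.p : ℝ) / π.q) (n + l.length) (regTree k (n + l.length)))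
      (gch (gridList π.K π.P) (runEnd l m) π.S)
  | [], _, _, _, hd => hd
  | (ps, ops) :: l, m, n, h, hd => by
    have hv' := hv
    obtain ⟨hq, hpq, hS, ⟨hM₁, -, -, -⟩, htop, hee, -, -, -⟩ := hv'
    obtain ⟨l0, l1⟩ := lam_bounds hq hpq
    obtain ⟨hl, hc, hops, hrest⟩ : Nat.beq m.length π.K = true ∧
        checkSq π.W π.K π.ee.1 π.S (π.G * π.ee.2.2 * ((3 * π.q * π.S) * (3 * π.q * π.S))) m
          (sqCodes π.W π.ee.2.1 π.ee.2.2 π.edges t.ee) ps = true ∧
        opsOK π t k m ops [(2, ps)] = true ∧ runOK π t k l (opsEnd ops ps) = true := by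
      simpa [Bool.and_eq_true] using
        (show (Nat.beq m.length π.K &&
          (checkSq π.W π.K π.ee.1 π.S (π.G * π.ee.2.2 * ((3 * π.q * π.S) * (3 * π.q * π.S))) m
              (sqCodes π.W π.ee.2.1 π.ee.2.2 π.edges t.ee) ps &&
            (opsOK π t k m ops [(2, ps)] && runOK π t k l (opsEnd ops ps)))) = true from h)
    have hm : m.length = π.K := Nat.eq_of_beq_eq_true hl
    have hC : ∀ η i, 0 ≤ edge (-(π.p : ℝ) / π.q) (gch (gridList π.K π.P) m π.S) η i := fun η =>
      push_nonneg l0 l1 (gch_nonneg _ _ _ η)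
    have hE := domP_edge hq hpq (gridList π.K π.P) m π.S
    rw [← mapK_eq] at hE
    have two : DomP (prodL fun _ : Fin 2 => edge (-(π.p : ℝ) / π.q) (gch (gridList π.K π.P) m π.S))
        (gch (gridList π.K π.P) ps π.S) :=
      domP_pow_add (a := 1) (b := 1) hC (gch_nonneg _ _ _) (domP_pow_one hE) (domP_pow_one hE)
        (domP_sq (by rw [← edges_length π] at hm; exact hm) (Nat.mul_pos (by omega) hS) hS hM₁
          htop hee hc)
    have := run_sound hv l _ (n + 1) hrest
      (domP_regTree_node l0 l1 hd (ops_sound hv hm ops ps 2 [] hops (fun e he => by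
        obtain rfl := List.mem_singleton.1 he
        exact two)) (gch_nonneg _ _ _))
    rw [show n + ((ps, ops) :: l).length = n + 1 + l.length by simp; omega]
    exact this

/-- The state itself as the start of a run. -/
theorem run_start (hv : Valid π t) (k : ℕ) {m : List ℕ} (hm : Nat.beq m.length π.K = true)
    (hS : Nat.ble π.S (2 * π.G * m.getD 0 0) = true) :
    DomP (lik (-(π.p : ℝ) / π.q) 0 (regTree k 0)) (gch (gridList π.K π.P) m π.S) := by
  obtain ⟨hq, hpq, hS', -, htop, -, -, -, -⟩ := hv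
  exact (regTree_perfect (lam_bounds hq hpq).1 (lam_bounds hq hpq).2).trans
    (domP_perfect htop (Nat.eq_of_beq_eq_true hm) hS' (Nat.le_of_ble_eq_true hS))

theorem rf_sq_eq (v : Fin 3 → ℝ) : rf (fun r => ∑ i, r i ^ 2) v = 2 * magV v := by
  rcases eq_or_ne (tot v) 0 with h | h
  · simp only [tot] at h
    simp [rf, magV, mag, tot, h]
  · rw [← Q3.rf_P2_eq, rf, magV, mag]
    simp only [tot] at h
    simp only [P2, rr, nsq, tot]; field_simp; ring

/-- The two bounds used by the endgame, on the whole interval of eigenvalues. -/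
theorem run_bounds (hv : Valid π t) (hp : 0 < π.p) {N D₂ D₄ : ℕ} {m : List ℕ}
    (h : DomP (lik (-(π.p : ℝ) / π.q) N (regTree k N)) (gch (gridList π.K π.P) m π.S))
    (h₂ : Nat.ble (dot m (mapK nsqN (gridList π.K π.P))) D₂ = true)
    (h₄ : Nat.ble (dot m (mapK (fun v => nsqN v * nsqN v) (gridList π.K π.P))) D₄ = true)
    {lam : ℝ} (h0 : -(π.p : ℝ) / π.q ≤ lam) (h1 : lam ≤ 0) :
    fval (rf fun r => ∑ i, r i ^ 2) (lik lam N (regTree k N)) ≤
        12 * (D₂ : ℝ) / (π.G * π.S) ∧
      2 * fval (rf fun r => ∑ i, r i ^ 4) (lik lam N (regTree k N)) ≤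
        72 * (D₄ : ℝ) / ((π.G : ℝ) ^ 3 * π.S) := by
  obtain ⟨hq, hpq, hS, -, htop, -, -, -, -⟩ := hv
  obtain ⟨hG, -⟩ := grid_mem htop
  have hμ0 : -(π.p : ℝ) / π.q < 0 :=
    div_neg_of_neg_of_pos (neg_lt_zero.2 (Nat.cast_pos.2 hp)) (Nat.cast_pos.2 hq)
  have hd := domP_regTree_corner le_rfl (lam_bounds hq hpq).1 hμ0 h0 h1 h
  have hGR : (0 : ℝ) < π.G := Nat.cast_pos.2 hG
  refine ⟨(hd _ posi_P2).trans ?_, ?_⟩
  · have e : fval (rf fun r => ∑ i, r i ^ 2) (gch (gridList π.K π.P) m π.S) =
        2 * fval magV (gch (gridList π.K π.P) m π.S) := by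
      simp only [fval, Finset.mul_sum, rf_sq_eq]
    rw [e, fval_magV_gch htop]
    have : ((dot m (mapK nsqN (gridList π.K π.P)) : ℕ) : ℝ) ≤ D₂ :=
      Nat.cast_le.2 (Nat.le_of_ble_eq_true h₂)
    rw [show 2 * (6 * ((dot m (mapK nsqN (gridList π.K π.P)) : ℕ) : ℝ) / (π.G * π.S)) =
      12 * ((dot m (mapK nsqN (gridList π.K π.P)) : ℕ) : ℝ) / (π.G * π.S) by ring]
    gcongr
  · refine (mul_le_mul_of_nonneg_left (hd _ posi_sum_four) (by norm_num)).trans ?_
    have e : fval (rf P4) (gch (gridList π.K π.P) m π.S) =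
        2 * fval (rf fun r => ∑ i, r i ^ 4) (gch (gridList π.K π.P) m π.S) := by
      simp only [fval, Finset.mul_sum]
      exact Finset.sum_congr rfl fun η _ => Q3.rf_P4_eq (gch_nonneg _ _ _ η)
    rw [← e, fval_P4_gch htop]
    have : ((dot m (mapK (fun v => nsqN v * nsqN v) (gridList π.K π.P)) : ℕ) : ℝ) ≤ D₄ :=
      Nat.cast_le.2 (Nat.le_of_ble_eq_true h₄)
    gcongr

end Vale.Agent.P154.Q3.DE
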