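import Vale.Agent.P154.DE.Defs

/-!
# Grid channels and the splitting inequality
-/

namespace Vale.Agent.P154.Q3.DE

open scoped BigOperators
open Equiv

/-- A natural vector as a real one. -/
def R (v : T) : Fin 3 → ℝ := ![(v.1 : ℝ), v.2.1, v.2.2]

theorem R_nonneg (v : T) (i : Fin 3) : 0 ≤ R v i := by fin_cases i <;> simp [R]

/-- The symmetrised value of `f` at a vector. -/
noncomputable def sym (f : (Fin 3 → ℝ) → ℝ) (v : Fin 3 → ℝ) : ℝ :=
  ∑ σ : Perm (Fin 3), f (v ∘ σ)

theorem sym_comp (f : (Fin 3 → ℝ) → ℝ) (v : Fin 3 → ℝ) (τ : Perm (Fin 3)) :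
    sym f (v ∘ τ) = sym f v :=
  Equiv.sum_comp (Equiv.mulLeft τ) fun σ : Perm (Fin 3) => f (v ∘ σ)

/-- The channel with weight `m_a / S` on every colour permutation of the `a`-th vector. -/
noncomputable def gch (xs : List T) (m : List ℕ) (S : ℕ) :
    Fin (m.zip xs).length × Perm (Fin 3) → Fin 3 → ℝ :=
  fun η i => (((m.zip xs)[η.1.1]'η.1.2).1 : ℝ) / S * R ((m.zip xs)[η.1.1]'η.1.2).2 (η.2 i)

theorem gch_nonneg (xs : List T) (m : List ℕ) (S : ℕ) (η) (i : Fin 3) : 0 ≤ gch xs m S η i :=
  mul_nonneg (div_nonneg (Nat.cast_nonneg _) (Nat.cast_nonneg _)) (R_nonneg _ _)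

/-- The weighted sum of real values. -/
def rdot : List ℕ → List ℝ → ℝ
  | c :: cs, v :: vs => (c : ℝ) * v + rdot cs vs
  | _, _ => 0

theorem rdot_eq_sum {α : Type} (F : α → ℝ) : ∀ (m : List ℕ) (g : List α),
    rdot m (g.map F) = ((m.zip g).map fun p => (p.1 : ℝ) * F p.2).sum
  | [], g => by cases g <;> simp [rdot]
  | a :: m, [] => by simp [rdot]
  | a :: m, v :: g => by simp [rdot, rdot_eq_sum F m g]

/-- The value of a homogeneous functional at a grid channel. -/
theorem fval_gch' {f : (Fin 3 → ℝ) → ℝ}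
    (hf : ∀ c v, 0 ≤ c → (∀ i, 0 ≤ v i) → f (c • v) = c * f v) (xs : List T) (m : List ℕ) (S : ℕ) :
    fval f (gch xs m S) = rdot m (xs.map fun v => sym f (R v)) / S := by
  rw [rdot_eq_sum, fval, Fintype.sum_prod_type, ← List.sum_ofFn]
  have e : ∀ a : Fin (m.zip xs).length, ∑ σ : Perm (Fin 3), f (gch xs m S (a, σ)) =
      (((m.zip xs)[a.1]).1 : ℝ) * sym f (R ((m.zip xs)[a.1]).2) / S := fun a => by
    rw [sym, Finset.mul_sum, Finset.sum_div]
    refine Finset.sum_congr rfl fun σ _ => ?_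
    rw [show gch xs m S (a, σ) = ((((m.zip xs)[a.1]).1 : ℝ) / S) •
      (R ((m.zip xs)[a.1]).2 ∘ σ) from rfl,
      hf _ (R ((m.zip xs)[a.1]).2 ∘ σ)
        (div_nonneg (Nat.cast_nonneg _) (Nat.cast_nonneg _)) (fun i => R_nonneg _ (σ i))]
    ring
  simp only [e]
  rw [show (List.ofFn fun a : Fin (m.zip xs).length =>
      (((m.zip xs)[a.1]).1 : ℝ) * sym f (R ((m.zip xs)[a.1]).2) / S) =
      (m.zip xs).map fun p => (p.1 : ℝ) * sym f (R p.2) / S from
    List.ext_getElem (by simp) fun i _ _ => by simp]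
  induction m.zip xs with
  | nil => simp
  | cons p l ih => simp [ih, add_div]

/-- The value of a functional at a grid channel. -/
theorem fval_gch {f : (Fin 3 → ℝ) → ℝ} (hf : Sublin f) (xs : List T) (m : List ℕ) (S : ℕ) :
    fval f (gch xs m S) = rdot m (xs.map fun v => sym f (R v)) / S :=
  fval_gch' hf.smul xs m S

/-! ### Permutations -/

theorem tperm_spec (k : ℕ) : ∃ τ : Perm (Fin 3), ∀ v, R (tperm k v) = R v ∘ τ := by
  have key : ∀ s : Fin 3 → Fin 3, Function.Bijective s →
      (∀ v, R (tperm k v) = R v ∘ s) → ∃ τ : Perm (Fin 3), ∀ v, R (tperm k v) = R v ∘ τ :=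
    fun s hs h => ⟨Equiv.ofBijective s hs, h⟩
  rcases Nat.lt_or_ge k 6 with h | h
  · interval_cases k
    · exact key ![0, 1, 2] (by decide) fun v => by funext i; fin_cases i <;> rfl
    · exact key ![1, 2, 0] (by decide) fun v => by funext i; fin_cases i <;> rfl
    · exact key ![2, 0, 1] (by decide) fun v => by funext i; fin_cases i <;> rfl
    · exact key ![0, 2, 1] (by decide) fun v => by funext i; fin_cases i <;> rfl
    · exact key ![2, 1, 0] (by decide) fun v => by funext i; fin_cases i <;> rfl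
    · exact key ![1, 0, 2] (by decide) fun v => by funext i; fin_cases i <;> rfl
  · refine key ![0, 1, 2] (by decide) fun v => ?_
    have e : ∀ j, j < 6 → Nat.beq k j = false := fun j hj => by
      cases hb : Nat.beq k j with
      | false => rfl
      | true => exact absurd (Nat.eq_of_beq_eq_true hb) (by omega)
    funext i
    simp only [tperm, e 1 (by norm_num), e 2 (by norm_num), e 3 (by norm_num),
      e 4 (by norm_num), e 5 (by norm_num), cond_false]
    fin_cases i <;> rfl

theorem sum_perm (g : Perm (Fin 3) → ℝ) :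
    ∃ τ : Fin 6 → Perm (Fin 3), (∀ k v, R (tperm k.val v) = R v ∘ τ k) ∧
      ∑ σ, g σ = ∑ k, g (τ k) := by
  let τ : Fin 6 → Perm (Fin 3) := fun k => Equiv.ofBijective _ (six_bij k)
  have hinj : Function.Injective τ := fun a b h => by
    have hh : six a = six b := congrArg (fun e : Perm (Fin 3) => (e : Fin 3 → Fin 3)) h
    revert hh; revert a b; decide
  have hbij : Function.Bijective τ := (Fintype.bijective_iff_injective_and_card τ).2
    ⟨hinj, by rw [Fintype.card_perm]; rfl⟩
  refine ⟨τ, fun k v => ?_, (hbij.sum_comp g).symm⟩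
  funext i
  fin_cases k <;> fin_cases i <;> rfl

/-! ### Splitting -/

/-- The value of a list of targets. -/
noncomputable def eval (P : ℕ) (f : (Fin 3 → ℝ) → ℝ) : List Entry → ℝ
  | [] => 0
  | (j, k, w) :: es => (w : ℝ) * f (R (tperm k (gv P j))) + eval P f es

theorem posi_comb {f} (hf : Posi f) (P : ℕ) : ∀ es, f (R (comb P es)) ≤ eval P f es
  | [] => by
    have h := hf.smul 0 (R (0, 0, 0)) le_rfl (R_nonneg _)
    rw [zero_smul, zero_mul] at h
    have e : R (comb P []) = 0 := by funext i; fin_cases i <;> simp [comb_nil, comb_cons, R]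
    rw [e, h]; exact le_rfl
  | (j, k, w) :: es => by
    have e : R (comb P ((j, k, w) :: es)) = (w : ℝ) • R (tperm k (gv P j)) + R (comb P es) := by
      funext i; fin_cases i <;> simp [comb_nil, comb_cons, R]
    rw [e]
    refine (hf.add _ _ (fun i => ?_) (R_nonneg _)).trans ?_
    · exact mul_nonneg (Nat.cast_nonneg _) (R_nonneg _ i)
    · rw [hf.smul _ _ (Nat.cast_nonneg _) (R_nonneg _)]
      exact add_le_add le_rfl (posi_comb hf P es)

theorem _root_.Vale.Agent.P154.Q3.Posi.comp_perm {f} (hf : Posi f) (σ : Perm (Fin 3)) : Posi fun v => f (v ∘ σ) where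
  nonneg v hv := hf.nonneg _ fun i => hv _
  smul c v hc hv := hf.smul c (v ∘ σ) hc fun i => hv _
  add v w hv hw := hf.add (v ∘ σ) (w ∘ σ) (fun i => hv _) fun i => hw _

theorem sym_nonneg {f} (hf : Posi f) {v : Fin 3 → ℝ} (hv : ∀ i, 0 ≤ v i) : 0 ≤ sym f v :=
  Finset.sum_nonneg fun σ _ => hf.nonneg _ fun i => hv _

/-- The symmetrised value of the targets is the weighted sum of the orbit values. -/
theorem sum_eval (P : ℕ) (f : (Fin 3 → ℝ) → ℝ) : ∀ (es : List Entry) {K : ℕ},
    (es.all fun e => decide (e.1 < K)) = true →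
    ∑ σ : Perm (Fin 3), eval P (fun v => f (v ∘ σ)) es =
      ∑ j ∈ Finset.range K, (wt j es : ℝ) * sym f (R (gv P j))
  | [], _, _ => by simp [eval, wt]
  | (j, k, w) :: es, K, h => by
    simp only [List.all_cons, Bool.and_eq_true, decide_eq_true_eq] at h
    obtain ⟨τ, hτ⟩ := tperm_spec k
    simp only [eval, wt, Finset.sum_add_distrib, sum_eval P f es h.2, ← Finset.mul_sum,
      Nat.cast_add, add_mul]
    congr 1
    rw [Finset.sum_eq_single_of_mem j (Finset.mem_range.2 h.1)]
    · rw [hτ, show (j == j) = true from beq_self_eq_true j, cond_true]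
      exact congrArg ((w : ℝ) * ·) (sym_comp f _ τ)
    · intro b _ hb
      rw [show (j == b) = false from beq_eq_false_iff_ne.2 hb.symm]
      simp

theorem wt_append (j : ℕ) : ∀ a b : List Entry, wt j (a ++ b) = wt j a + wt j b
  | [], b => by simp [wt]
  | e :: a, b => by simp [wt, wt_append j a b, add_assoc]

theorem wt_flatten (j : ℕ) : ∀ l : List (List Entry), wt j l.flatten = (l.map (wt j)).sum
  | [] => rfl
  | a :: l => by simp [wt_append, wt_flatten j l]

end Vale.Agent.P154.Q3.DE
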