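import Vale.Agent.P154.DE.Regular

/-!
# Checking a run piece by piece

A long run is checked in pieces, each by its own kernel computation, so that the intermediate
values of one piece are released before the next starts.
-/

namespace Vale.Agent.P154.Q3.DE

variable {π : Par} {t : Tables} {k : ℕ}

theorem runOK_append : ∀ (l₁ l₂ : List (List ℕ × List Op)) (m : List ℕ),
    runOK π t k l₁ m = true → runOK π t k l₂ (runEnd l₁ m) = true →
      runOK π t k (l₁ ++ l₂) m = true
  | [], _, _, _, h₂ => h₂
  | e :: l, l₂, m, h₁, h₂ => by
    change (_ && (_ && (_ && runOK π t k l (opsEnd e.2 e.1)))) = true at h₁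
    change (_ && (_ && (_ && runOK π t k (l ++ l₂) (opsEnd e.2 e.1)))) = true
    simp only [Bool.and_eq_true] at h₁ ⊢
    obtain ⟨a, b, c, d⟩ := h₁
    exact ⟨a, b, c, runOK_append l l₂ _ d h₂⟩

/-- A run checked up to level `n` and from there on. -/
theorem runOK_split (n : ℕ) {l : List (List ℕ × List Op)} {m : List ℕ}
    (h₁ : runOK π t k (l.take n) m = true)
    (h₂ : runOK π t k (l.drop n) (runEnd (l.take n) m) = true) : runOK π t k l m = true := by
  have h := runOK_append (l.take n) (l.drop n) m h₁ h₂
  rwa [List.take_append_drop] at h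

end Vale.Agent.P154.Q3.DE
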