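import Vale.Agent.P154.DE.Level

/-!
# The certified steps as comparisons of channels
-/

namespace Vale.Agent.P154.Q3.DE

open scoped BigOperators
open Equiv

variable {P K G B W c : ℕ} {f : (Fin 3 → ℝ) → ℝ}

theorem eval_flatten (P : ℕ) (f : (Fin 3 → ℝ) → ℝ) :
    ∀ l : List (List Entry), eval P f l.flatten = (l.map (eval P f)).sum
  | [] => rfl
  | a :: l => by
    have app : ∀ a b : List Entry, eval P f (a ++ b) = eval P f a + eval P f b := by
      intro a b; induction a with
      | nil => simp [eval]
      | cons e a ih => obtain ⟨j, k, w⟩ := e; simp [eval, ih, add_assoc]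
    simp [app, eval_flatten P f l]

theorem push_comp (lam : ℝ) (v : Fin 3 → ℝ) (σ : Perm (Fin 3)) :
    push lam (v ∘ σ) = push lam v ∘ σ := by
  have h := Equiv.sum_comp σ v
  simp only [Fin.sum_univ_three] at h
  funext i
  simp only [push, tot, Function.comp]
  rw [h]

/-- The symmetrised value of a product. -/
noncomputable def pairVal (f : (Fin 3 → ℝ) → ℝ) (ab : T × T) : ℝ :=
  ∑ σ : Perm (Fin 3), ∑ ρ : Perm (Fin 3), f ((R ab.1 ∘ σ) * (R ab.2 ∘ ρ))

theorem pairVal_comm (f : (Fin 3 → ℝ) → ℝ) (a b : T) : pairVal f (a, b) = pairVal f (b, a) := by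
  rw [pairVal, pairVal, Finset.sum_comm]
  simp only [mul_comm]

theorem pair_item {f} (hf : Posi f) {ab : T × T} {it : Item}
    (h : pairOK c P ab it = true) (hok : itemOK K B it = true) :
    (c : ℝ) * pairVal f ab ≤
      ∑ j ∈ Finset.range K, (wt j it.2.flatten : ℝ) * sym f (R (gv P j)) := by
  have hok' := hok
  simp only [itemOK, catK_eq, allK_eq, Bool.and_eq_true, Nat.ble_eq] at hok'
  have hall : (it.2.flatten.all fun e => decide (e.1 < K)) = true := by
    simpa [List.all_eq_true, Nat.blt_eq] using hok'.2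
  rw [← sum_eval P f it.2.flatten hall, pairVal, Finset.mul_sum]
  refine Finset.sum_le_sum fun σ _ => ?_
  obtain ⟨τ, hτ, hsum⟩ := sum_perm fun ρ => f ((R ab.1 ∘ σ) * (R ab.2 ∘ (ρ * σ)))
  rw [← Equiv.sum_comp (Equiv.mulRight σ) fun ρ => f ((R ab.1 ∘ σ) * (R ab.2 ∘ ρ))]
  rw [show ∑ ρ : Perm (Fin 3), f ((R ab.1 ∘ σ) * (R ab.2 ∘ (Equiv.mulRight σ ρ))) =
    ∑ k, f ((R ab.1 ∘ σ) * (R ab.2 ∘ (τ k * σ))) from hsum, eval_flatten, Finset.mul_sum]
  obtain ⟨e0, e1, e2, e3, e4, e5, hes⟩ :
      ∃ e0 e1 e2 e3 e4 e5, it.2 = [e0, e1, e2, e3, e4, e5] := by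
    match hh : it.2 with
    | [e0, e1, e2, e3, e4, e5] => exact ⟨e0, e1, e2, e3, e4, e5, rfl⟩
    | [] | [_] | [_, _] | [_, _, _] | [_, _, _, _] | [_, _, _, _, _] =>
      simp [pairOK, hh] at h
    | _ :: _ :: _ :: _ :: _ :: _ :: e6 :: r =>
      simp only [pairOK, hh, Bool.and_eq_true] at h
      exfalso
      have : ∀ (l : List (List Entry)) (k : ℕ), 6 < k →
          List.rec (motive := fun _ => ℕ → Bool) (fun k => Nat.beq k 6)
            (fun es _ ih k => teq (comb P es) (tsmul c (tmul ab.1 (tperm k ab.2))) &&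
              ih (Nat.add k 1)) l k = false := by
        intro l
        induction l with
        | nil =>
          intro k hk
          cases hb : Nat.beq k 6 with
          | false => exact hb
          | true => exact absurd (Nat.eq_of_beq_eq_true hb) (by omega)
        | cons x l ih => intro k hk; simp [ih (k + 1) (by omega)]
      have h7 := h.2.2.2.2.2.2
      rw [this r _ (by simp)] at h7
      exact Bool.false_ne_true h7.2
  have one : ∀ (k : Fin 6) (es : List Entry),
      comb P es = tsmul c (tmul ab.1 (tperm k.val ab.2)) →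
      (c : ℝ) * f ((R ab.1 ∘ σ) * (R ab.2 ∘ (τ k * σ))) ≤ eval P (fun v => f (v ∘ σ)) es := by
    intro k es hk
    have hR : R (comb P es) = (c : ℝ) • (R ab.1 * R (tperm k.val ab.2)) := by
      rw [hk]; funext i; fin_cases i <;> simp [R, tsmul, tmul]
    have := posi_comb (hf.comp_perm σ) P es
    rw [hR, (hf.comp_perm σ).smul _ (R ab.1 * R (tperm k.val ab.2)) (Nat.cast_nonneg c)
      (fun i => mul_nonneg (R_nonneg _ i) (R_nonneg _ i)), hτ] at this
    exact this
  simp only [pairOK, hes, Bool.and_eq_true] at h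
  have teq' : ∀ u v : T, teq u v = true → u = v := fun u v huv => by
    simp only [teq, Bool.and_eq_true] at huv
    exact Prod.ext (Nat.eq_of_beq_eq_true huv.1)
      (Prod.ext (Nat.eq_of_beq_eq_true huv.2.1) (Nat.eq_of_beq_eq_true huv.2.2))
  obtain ⟨c0, c1, c2, c3, c4, c5, -⟩ := h
  rw [hes]
  simp only [List.map_cons, List.map_nil, List.sum_cons, List.sum_nil, Fin.sum_univ_six, add_zero]
  linarith [one 0 e0 (teq' _ _ c0), one 1 e1 (teq' _ _ c1), one 2 e2 (teq' _ _ c2),
    one 3 e3 (teq' _ _ c3), one 4 e4 (teq' _ _ c4), one 5 e5 (teq' _ _ c5)]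

theorem rdot_append : ∀ (a : List ℕ) (x : List ℝ) (b : List ℕ) (y : List ℝ),
    a.length = x.length → rdot (a ++ b) (x ++ y) = rdot a x + rdot b y
  | [], [], b, y, _ => by simp [rdot]
  | [], _ :: _, _, _, h => by simp at h
  | _ :: _, [], _, _, h => by simp at h
  | c :: a, v :: x, b, y, h => by
    simp only [List.cons_append, rdot, rdot_append a x b y (by simpa using h)]; ring

theorem rdot_smul (r : ℝ) {α : Type} (F : α → ℝ) : ∀ (m : List ℕ) (xs : List α),
    rdot m (xs.map fun v => r * F v) = r * rdot m (xs.map F)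
  | [], xs => by cases xs <;> simp [rdot]
  | a :: m, [] => by simp [rdot]
  | a :: m, v :: xs => by simp only [List.map_cons, rdot, rdot_smul r F m xs]; ring

theorem rdot_sum {ι : Type} [Fintype ι] {α : Type} (F : ι → α → ℝ) :
    ∀ (m : List ℕ) (xs : List α),
    rdot m (xs.map fun v => ∑ i, F i v) = ∑ i, rdot m (xs.map (F i))
  | [], xs => by cases xs <;> simp [rdot]
  | a :: m, [] => by simp [rdot]
  | a :: m, v :: xs => by
    simp only [List.map_cons, rdot, rdot_sum F m xs, Finset.mul_sum, Finset.sum_add_distrib]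

theorem eV_spec {p q : ℕ} (hq : 0 < q) (hpq : 2 * p ≤ q) (v : T) :
    R (eV p q v) = (3 * q : ℝ) • push (-(p : ℝ) / q) (R v) := by
  have hlq : -(p : ℝ) / q * q = -(p : ℝ) := by
    field_simp
  have key : ∀ x : ℕ, x ≤ v.1 + v.2.1 + v.2.2 →
      (((q + p) * (v.1 + v.2.1 + v.2.2) - 3 * p * x : ℕ) : ℝ) =
        (q + p) * ((v.1 : ℝ) + v.2.1 + v.2.2) - 3 * p * x := fun x hx => by
    rw [Nat.cast_sub ((Nat.mul_le_mul_left _ hx).trans (Nat.mul_le_mul_right _ (by omega)))]
    push_cast; ring
  funext i
  fin_cases i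
  · simp [R, eV, push, tot, key v.1 (by omega)]
    linear_combination -(3 * (v.1 : ℝ) - (v.1 + v.2.1 + v.2.2)) * hlq
  · simp [R, eV, push, tot, key v.2.1 (by omega)]
    linear_combination -(3 * (v.2.1 : ℝ) - (v.1 + v.2.1 + v.2.2)) * hlq
  · simp [R, eV, push, tot, key v.2.2 (by omega)]
    linear_combination -(3 * (v.2.2 : ℝ) - (v.1 + v.2.1 + v.2.2)) * hlq

theorem lam_bounds {p q : ℕ} (hq : 0 < q) (hpq : 2 * p ≤ q) :
    -1 / 2 ≤ -(p : ℝ) / q ∧ -(p : ℝ) / q ≤ 1 := by
  have hqR : (0 : ℝ) < q := Nat.cast_pos.2 hq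
  have h1 : 2 * (p : ℝ) ≤ q := by exact_mod_cast hpq
  have h2 : (0 : ℝ) ≤ p := Nat.cast_nonneg p
  exact ⟨by rw [le_div_iff₀ hqR]; linarith, by rw [div_le_iff₀ hqR]; linarith⟩

/-- An edge of eigenvalue `-p/q` maps a grid channel exactly. -/
theorem domP_edge {p q : ℕ} (hq : 0 < q) (hpq : 2 * p ≤ q) (xs : List T) (m : List ℕ) (S : ℕ) :
    DomP (edge (-(p : ℝ) / q) (gch xs m S)) (gch (xs.map (eV p q)) m (3 * q * S)) := by
  intro f hf
  obtain ⟨l0, l1⟩ := lam_bounds hq hpq
  have hg : Posi fun v => f (push (-(p : ℝ) / q) v) := hf.comp_push l0 l1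
  have hqR : (0 : ℝ) < q := Nat.cast_pos.2 hq
  show fval (fun v => f (push (-(p : ℝ) / q) v)) (gch xs m S) ≤ _
  rw [fval_gch hg.toSublin, fval_gch hf.toSublin, List.map_map]
  refine le_of_eq ?_
  have e : ∀ v : T, sym f (R (eV p q v)) =
      (3 * q : ℝ) * sym (fun w => f (push (-(p : ℝ) / q) w)) (R v) := fun v => by
    rw [sym, sym, Finset.mul_sum, eV_spec hq hpq]
    refine Finset.sum_congr rfl fun σ _ => ?_
    rw [show ((3 * q : ℝ) • push (-(p : ℝ) / q) (R v)) ∘ σ =
      (3 * q : ℝ) • push (-(p : ℝ) / q) (R v ∘ σ) by rw [push_comp]; rfl]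
    exact hf.smul _ (push (-(p : ℝ) / q) (R v ∘ σ)) (by positivity)
      (push_nonneg l0 l1 fun i => R_nonneg v (σ i))
  simp only [Function.comp_def, e, rdot_smul]
  push_cast
  field_simp

theorem table_rows {α : Type} {ok : α → Item → Bool} {xs : List α} {tb : List Item}
    (h : all2 (fun a it => ok a it && itemOK K B it) xs tb = true) :
    xs.length = tb.length ∧ (∀ it ∈ tb, itemOK K B it = true) ∧
      ∀ p ∈ xs.zip tb, ok p.1 p.2 = true ∧ itemOK K B p.2 = true := by
  obtain ⟨hl, hp⟩ := all2_spec _ xs tb h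
  simp only [Bool.and_eq_true] at hp
  refine ⟨hl, fun it hit => ?_, hp⟩
  obtain ⟨i, hi, rfl⟩ := List.getElem_of_mem hit
  exact (hp _ (List.mem_iff_getElem.2 ⟨i, by simpa [hl] using hi,
    List.getElem_zip (l := xs) (l' := tb) (h := by simpa [hl] using hi)⟩)).2

theorem single_item (hf : Posi f) {a : T} {it : Item} (h : singleOK c P a it = true)
    (hok : itemOK K B it = true) :
    (c : ℝ) * sym f (R a) ≤
      ∑ j ∈ Finset.range K, (wt j it.2.flatten : ℝ) * sym f (R (gv P j)) := by
  obtain ⟨t, bl⟩ := it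
  match bl with
  | [] => exact absurd h Bool.false_ne_true
  | _ :: _ :: _ => exact absurd h Bool.false_ne_true
  | [es] =>
    have h' : teq (comb P es) (tsmul c a) = true := h
    simp only [teq, Bool.and_eq_true] at h'
    have hc : R (comb P es) = (c : ℝ) • R a := by
      funext i
      fin_cases i <;> simp [R, tsmul, Nat.eq_of_beq_eq_true h'.1,
        Nat.eq_of_beq_eq_true h'.2.1, Nat.eq_of_beq_eq_true h'.2.2]
    simp only [itemOK, catK_eq, allK_eq, Bool.and_eq_true, Nat.ble_eq] at hok
    have hall : (([es] : List (List Entry)).flatten.all fun e => decide (e.1 < K)) = true := by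
      simpa [List.all_eq_true, Nat.blt_eq] using hok.2
    rw [← sum_eval P f _ hall, sym, Finset.mul_sum]
    refine Finset.sum_le_sum fun σ _ => ?_
    have := posi_comb (hf.comp_perm σ) P es
    rw [hc, (hf.comp_perm σ).smul _ _ (Nat.cast_nonneg c) (R_nonneg a)] at this
    simpa using this

theorem div_le_of_step {U C' c x y : ℝ} (hc : 0 < c) (hC : 0 < C') (hU : 0 < U)
    (h : U * (c * x) ≤ c * C' * y) : x / C' ≤ y / U := by
  rw [div_le_div_iff₀ hC hU]
  have h' : c * (x * U) ≤ c * (y * C') := by linarith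
  exact le_of_mul_le_mul_left h' hc

/-- A certified split of a channel onto the grid. -/
theorem domP_single {S U : ℕ} {xs : List T} {m ps cd : List ℕ} {tb : List Item}
    (hS : 0 < S) (hU : 0 < U) (hc : 0 < c) (htop : topOK G K P = true)
    (ht : singleTableOK c K B P xs tb = true) (hcd : codesOK W tb cd = true)
    (hl : checkLevel W K B U (c * S) m cd ps = true) :
    DomP (gch xs m S) (gch (gridList K P) ps U) := by
  intro f hf
  obtain ⟨hlen, hok, hp⟩ := table_rows ht
  rw [← codesOK_eq hcd] at hl
  have := lift hf (F := fun v => sym f (R v)) hlen hok htop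
    (fun x hx => single_item hf (hp x hx).1 (hp x hx).2) hl
  rw [fval_gch hf.toSublin, fval_gch hf.toSublin]
  push_cast at this
  exact div_le_of_step (Nat.cast_pos.2 hc) (Nat.cast_pos.2 hS) (Nat.cast_pos.2 hU) this

/-- The value of a functional at a product of grid channels. -/
theorem fval_tens_gch (hf : Posi f) (xs ys : List T) (m n : List ℕ) (S S₂ : ℕ) :
    fval f (tens (gch xs m S) (gch ys n S₂)) =
      rdot m (xs.map fun a => rdot n (ys.map fun b => pairVal f (a, b))) / (S * S₂) := by
  rw [fval_tens, fval_gch (hf.comp_mul (gch_nonneg ys n S₂)).toSublin]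
  have e : ∀ a : T, sym (fun v => ∑ η, f (fun i => v i * gch ys n S₂ η i)) (R a) =
      (1 / S₂ : ℝ) * rdot n (ys.map fun b => pairVal f (a, b)) := fun a => by
    simp only [pairVal]
    rw [rdot_sum, Finset.mul_sum, sym]
    refine Finset.sum_congr rfl fun σ _ => ?_
    have hg : Posi fun v => f (v * (R a ∘ σ)) :=
      ⟨⟨fun r v hr hv => by
          rw [smul_mul_assoc]
          exact hf.smul _ _ hr fun i => mul_nonneg (hv i) (R_nonneg a (σ i)),
        fun u v hu hv => by
          rw [add_mul]
          exact hf.add _ _ (fun i => mul_nonneg (hu i) (R_nonneg a (σ i)))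
            fun i => mul_nonneg (hv i) (R_nonneg a (σ i))⟩,
        fun v hv => hf.nonneg _ fun i => mul_nonneg (hv i) (R_nonneg a (σ i))⟩
    have h2 := fval_gch hg.toSublin ys n S₂
    simp only [fval, sym, mul_comm _ (R a ∘ σ)] at h2
    rw [one_div_mul_eq_div]
    exact h2
  simp only [e, rdot_smul]
  ring

theorem rdot_pairAll {α : Type} (F : α × α → ℝ) : ∀ (m : List ℕ) (xs : List α) (n : List ℕ)
    (ys : List α), m.length = xs.length → n.length = ys.length →
    rdot (coefAll m n) ((pairAll xs ys).map F) =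
      rdot m (xs.map fun a => rdot n (ys.map fun b => F (a, b)))
  | [], [], _, _, _, _ => by simp [coefAll, pairAll, rdot]
  | [], _ :: _, _, _, h, _ => by simp at h
  | _ :: _, [], _, _, h, _ => by simp at h
  | x :: m, a :: xs, n, ys, h, h' => by
    have e1 : ∀ (u : List ℕ) (acc : List ℕ),
        List.rec (motive := fun _ => List ℕ) acc (fun y _ r => Nat.mul x y :: r) u =
          u.map (x * ·) ++ acc := by
      intro u acc; induction u with
      | nil => rfl
      | cons y u ih => exact congrArg (x * y :: ·) ih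
    have e2 : ∀ (u : List α) (acc : List (α × α)),
        List.rec (motive := fun _ => List (α × α)) acc (fun y _ r => (a, y) :: r) u =
          u.map (fun y => (a, y)) ++ acc := by
      intro u acc; induction u with
      | nil => rfl
      | cons y u ih => simp [ih]
    have e3 : ∀ (u : List ℕ) (g : α → ℝ) (v : List α),
        rdot (u.map (x * ·)) (v.map g) = (x : ℝ) * rdot u (v.map g) := by
      intro u g v; induction u generalizing v with
      | nil => cases v <;> simp [rdot]
      | cons y u ih => cases v with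
        | nil => simp [rdot]
        | cons b v => simp [rdot, ih]; ring
    show rdot (List.rec (motive := fun _ => List ℕ) (coefAll m n) (fun y _ r => Nat.mul x y :: r) n)
      (List.map F (List.rec (motive := fun _ => List (α × α)) (pairAll xs ys)
        (fun y _ r => (a, y) :: r) ys)) = _
    rw [e1, e2, List.map_append, rdot_append _ _ _ _ (by simp [h']), List.map_map,
      rdot_pairAll F m xs n ys (by simpa using h) h', List.map_cons, rdot]
    exact congrArg (· + _) (e3 n (fun y => F (a, y)) ys)

theorem rdot_coefRow {α : Type} (g : α → ℝ) (x y : ℕ) : ∀ (u v : List ℕ) (l : List α)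
    (acc : List ℕ) (acc' : List ℝ), u.length = l.length → v.length = l.length →
    rdot (coefRow x y acc u v) (l.map g ++ acc') =
      (x : ℝ) * rdot v (l.map g) + (y : ℝ) * rdot u (l.map g) + rdot acc acc'
  | [], [], [], acc, acc', _, _ => by simp [coefRow, rdot]
  | [], _ :: _, [], _, _, _, hv => by simp at hv
  | [], _, _ :: _, _, _, hu, _ => by simp at hu
  | _ :: _, _, [], _, _, hu, _ => by simp at hu
  | _ :: _, [], _ :: _, _, _, _, hv => by simp at hv
  | i :: u, j :: v, b :: l, acc, acc', hu, hv => by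
    show rdot ((x * j + i * y) :: coefRow x y acc u v) _ = _
    simp only [List.map_cons, List.cons_append, rdot,
      rdot_coefRow g x y u v l acc acc' (by simpa using hu) (by simpa using hv)]
    push_cast; ring

theorem rdot_pairUp {α : Type} (F : α × α → ℝ) (hF : ∀ a b, F (a, b) = F (b, a)) :
    ∀ (m n : List ℕ) (xs : List α), m.length = xs.length → n.length = xs.length →
    rdot (coefUp m n) ((pairUp xs).map F) =
      rdot m (xs.map fun a => rdot n (xs.map fun b => F (a, b)))
  | [], [], [], _, _ => by simp [coefUp, pairUp, rdot]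
  | [], _, _ :: _, h, _ => by simp at h
  | [], _ :: _, [], _, h => by simp at h
  | _ :: _, _, [], h, _ => by simp at h
  | _ :: _, [], _ :: _, _, h => by simp at h
  | x :: m, y :: n, a :: xs, h, h' => by
    have hm : m.length = xs.length := by simpa using h
    have hn : n.length = xs.length := by simpa using h'
    have e2 : ∀ (u : List α) (acc : List (α × α)),
        List.rec (motive := fun _ => List (α × α)) acc (fun b _ r => (a, b) :: r) u =
          u.map (fun b => (a, b)) ++ acc := by
      intro u acc; induction u with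
      | nil => rfl
      | cons b u ih => simp [ih]
    show rdot (Nat.mul x y :: coefRow x y (coefUp m n) m n) (List.map F ((a, a) ::
      List.rec (motive := fun _ => List (α × α)) (pairUp xs) (fun b _ r => (a, b) :: r) xs)) = _
    rw [e2, List.map_cons, rdot, List.map_append, List.map_map]
    show _ + rdot _ ((xs.map fun b => F (a, b)) ++ _) = _
    rw [rdot_coefRow (fun b => F (a, b)) x y m n xs _ _ hm hn, rdot_pairUp F hF m n xs hm hn]
    simp only [List.map_cons, rdot]
    have e4 : rdot m (xs.map fun i => (y : ℝ) * F (i, a) + rdot n (xs.map fun b => F (i, b))) =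
        (y : ℝ) * rdot m (xs.map fun i => F (a, i)) +
          rdot m (xs.map fun i => rdot n (xs.map fun b => F (i, b))) := by
      clear e2 h h' hm
      generalize hQ : (fun i => rdot n (xs.map fun b => F (i, b))) = Q
      have hQ' : ∀ i, rdot n (xs.map fun b => F (i, b)) = Q i := fun i => by rw [← hQ]
      simp only [hQ']
      clear hQ hQ' hn
      induction m generalizing xs with
      | nil => cases xs <;> simp [rdot]
      | cons i m ih => cases xs with
        | nil => simp [rdot]
        | cons b xs => simp only [List.map_cons, rdot, ih xs, hF b a]; ring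
    rw [e4, show Nat.mul x y = x * y from rfl]
    push_cast; ring

theorem domP_pairs {prs : List (T × T)} {S S₂ U : ℕ} {xs ys : List T}
    {cs m n ps cd : List ℕ} {tb : List Item}
    (he : ∀ F : T × T → ℝ, (∀ a b, F (a, b) = F (b, a)) →
      rdot cs (prs.map F) = rdot m (xs.map fun a => rdot n (ys.map fun b => F (a, b))))
    (hS : 0 < S) (hS₂ : 0 < S₂) (hU : 0 < U) (hc : 0 < c) (htop : topOK G K P = true)
    (ht : pairTableOK c K B P prs tb = true) (hcd : codesOK W tb cd = true)
    (hl : checkLevel W K B U (c * (S * S₂)) cs cd ps = true) :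
    DomP (tens (gch xs m S) (gch ys n S₂)) (gch (gridList K P) ps U) := by
  intro f hf
  obtain ⟨hlen, hok, hp⟩ := table_rows ht
  rw [← codesOK_eq hcd] at hl
  have := lift hf (F := pairVal f) hlen hok htop
    (fun x hx => pair_item hf (hp x hx).1 (hp x hx).2) hl
  rw [fval_tens_gch hf, fval_gch hf.toSublin, ← he _ (pairVal_comm f)]
  push_cast at this
  exact div_le_of_step (Nat.cast_pos.2 hc)
    (mul_pos (Nat.cast_pos.2 hS) (Nat.cast_pos.2 hS₂)) (Nat.cast_pos.2 hU) this

/-- A certified product over one list of vectors. -/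
theorem domP_square {S S₂ U : ℕ} {xs : List T} {m n ps cd : List ℕ} {tb : List Item}
    (hm : m.length = xs.length) (hn : n.length = xs.length)
    (hS : 0 < S) (hS₂ : 0 < S₂) (hU : 0 < U) (hc : 0 < c) (htop : topOK G K P = true)
    (ht : pairTableOK c K B P (pairUp xs) tb = true) (hcd : codesOK W tb cd = true)
    (hl : checkLevel W K B U (c * (S * S₂)) (coefUp m n) cd ps = true) :
    DomP (tens (gch xs m S) (gch xs n S₂)) (gch (gridList K P) ps U) :=
  domP_pairs (fun F hF => rdot_pairUp F hF m n xs hm hn) hS hS₂ hU hc htop ht hcd hl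

/-- A certified product over two lists of vectors. -/
theorem domP_product {S S₂ U : ℕ} {xs ys : List T} {m n ps cd : List ℕ} {tb : List Item}
    (hm : m.length = xs.length) (hn : n.length = ys.length)
    (hS : 0 < S) (hS₂ : 0 < S₂) (hU : 0 < U) (hc : 0 < c) (htop : topOK G K P = true)
    (ht : pairTableOK c K B P (pairAll xs ys) tb = true) (hcd : codesOK W tb cd = true)
    (hl : checkLevel W K B U (c * (S * S₂)) (coefAll m n) cd ps = true) :
    DomP (tens (gch xs m S) (gch ys n S₂)) (gch (gridList K P) ps U) :=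
  domP_pairs (fun F _ => rdot_pairAll F m xs n ys hm hn) hS hS₂ hU hc htop ht hcd hl

end Vale.Agent.P154.Q3.DE
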